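import Vale.Agent.H23.CT.TwoCol

/-!
# P328: the bridge from the triangle-cover inequality to the three-row gap

`rowDefect f` is the defect of the three-row inequality of `ThreeRowGap` for a function `f` on a
class of `3 x n` contingency tables.  For three distinct columns `t 0, t 1, t 2` and a
permutation `σ` of the three rows, `triShift t ht σ` adds one unit in the cells `(k, t (σ k))`;
it maps the class with margins `r`, `c` into the class whose row sums are `r k + 1` and whose
column sums are raised by one in the three columns.  `TriCoverHyp` says that six times the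
defect of the large class is at least the sum of the defects of the six shifted copies of the
small class; `threeRowGap_of_triCover` derives `ThreeRowGap` from it by induction on the total.
-/

namespace Vale.Agent.H25.CT

open Finset Vale.Agent.H90 Vale.Agent.H88.CT

/-- The defect of the three-row inequality on a class of `3 x n` contingency tables: the sum
over the three rows `k` of the sum of squares of `f` minus its average over the tables with the
same `k`-th row, minus the sum of squares of `f` minus its mean over the class. -/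
noncomputable def rowDefect {n : ℕ} {r : Fin 3 → ℕ} {c : Fin n → ℕ} (f : Omega r c → ℝ) : ℝ :=
  (∑ k : Fin 3, ∑ X, (f X - avgRel (fun X Y : Omega r c => X.1 k = Y.1 k) f X) ^ 2)
    - ∑ X, (f X - (∑ Y, f Y) / (Fintype.card (Omega r c) : ℝ)) ^ 2

theorem triShift_aux {n : ℕ} {r : Fin 3 → ℕ} {c : Fin n → ℕ} (t : Fin 3 → Fin n)
    (ht : Function.Injective t) (σ : Equiv.Perm (Fin 3)) (η : Omega r c) :
    (∀ k, ∑ l, (η.1 k l + if l = t (σ k) then 1 else 0) = r k + 1) ∧
      ∀ l, ∑ k, (η.1 k l + if l = t (σ k) then 1 else 0)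
        = c l + if ∃ k, t k = l then 1 else 0 := by
  constructor
  · intro k
    rw [Finset.sum_add_distrib, η.2.1 k, Finset.sum_ite_eq' univ (t (σ k)) (fun _ => 1)]
    simp
  · intro l
    rw [Finset.sum_add_distrib, η.2.2 l]
    congr 1
    have h1 : ∑ k, (if l = t (σ k) then 1 else 0) = ∑ k, (if l = t k then (1 : ℕ) else 0) :=
      Equiv.sum_comp σ (fun k => if l = t k then (1 : ℕ) else 0)
    rw [h1]
    by_cases hl : ∃ k, t k = l
    · obtain ⟨k0, hk0⟩ := hl
      have h2 : ∀ k, (if l = t k then (1 : ℕ) else 0) = if k = k0 then 1 else 0 := by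
        intro k
        by_cases hk : k = k0
        · rw [if_pos hk, if_pos (by rw [hk, hk0])]
        · rw [if_neg hk, if_neg]
          intro h
          exact hk (ht (by rw [hk0, ← h]))
      rw [Finset.sum_congr rfl (fun k _ => h2 k), Finset.sum_ite_eq' univ k0 (fun _ => 1),
        if_pos (Finset.mem_univ k0), if_pos ⟨k0, hk0⟩]
    · rw [if_neg hl]
      apply Finset.sum_eq_zero
      intro k _
      rw [if_neg]
      intro h
      exact hl ⟨k, h.symm⟩

/-- Add one unit in the three cells `(k, t (σ k))`, `k = 0, 1, 2`. -/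
def triShift {n : ℕ} {r : Fin 3 → ℕ} {c : Fin n → ℕ} (t : Fin 3 → Fin n)
    (ht : Function.Injective t) (σ : Equiv.Perm (Fin 3)) (η : Omega r c) :
    Omega (fun k => r k + 1) (fun l => c l + if ∃ k, t k = l then 1 else 0) :=
  ⟨fun k l => η.1 k l + if l = t (σ k) then 1 else 0, triShift_aux t ht σ η⟩

/-- The triangle-cover hypothesis: for three distinct columns `t 0, t 1, t 2`, the defect of
the three-row inequality on the class with row sums `r k + 1` and column sums raised by one in
the three columns, taken six times, is at least the sum over the six permutations `σ` of the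
defect on the class with margins `r`, `c` of the function `η ↦ f (triShift t ht σ η)`. -/
def TriCoverHyp : Prop :=
  ∀ (n : ℕ) (r : Fin 3 → ℕ) (c : Fin n → ℕ) (t : Fin 3 → Fin n) (ht : Function.Injective t)
    (f : Omega (fun k => r k + 1) (fun l => c l + if ∃ k, t k = l then 1 else 0) → ℝ),
    ∑ σ : Equiv.Perm (Fin 3), rowDefect (fun η : Omega r c => f (triShift t ht σ η))
      ≤ 6 * rowDefect f

/-- The defect is nonnegative when some row sum vanishes. -/
theorem rowDefect_nonneg_of_row_zero {n : ℕ} {r : Fin 3 → ℕ} {c : Fin n → ℕ} (k0 : Fin 3)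
    (hk0 : r k0 = 0) (f : Omega r c → ℝ) : 0 ≤ rowDefect f := by
  have hrel : ∀ X Y : Omega r c, X.1 k0 = Y.1 k0 := by
    intro X Y
    funext l
    have h1 := entry_le_row X k0 l
    have h2 := entry_le_row Y k0 l
    omega
  have havg : ∀ X : Omega r c, avgRel (fun X Y : Omega r c => X.1 k0 = Y.1 k0) f X
      = (∑ Y, f Y) / (Fintype.card (Omega r c) : ℝ) := by
    intro X
    unfold avgRel
    have hf : univ.filter (fun y : Omega r c => X.1 k0 = y.1 k0) = univ :=
      Finset.filter_true_of_mem (fun y _ => hrel X y)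
    rw [hf, Finset.card_univ]
  have hle : ∑ X, (f X - avgRel (fun X Y : Omega r c => X.1 k0 = Y.1 k0) f X) ^ 2
      ≤ ∑ k : Fin 3, ∑ X, (f X - avgRel (fun X Y : Omega r c => X.1 k = Y.1 k) f X) ^ 2 :=
    Finset.single_le_sum
      (f := fun k : Fin 3 => ∑ X, (f X - avgRel (fun X Y : Omega r c => X.1 k = Y.1 k) f X) ^ 2)
      (fun k _ => Finset.sum_nonneg (fun X _ => sq_nonneg _)) (Finset.mem_univ k0)
  rw [Finset.sum_congr rfl (fun X _ => by rw [havg X])] at hle
  unfold rowDefect
  linarith

/-- The defect is nonnegative on a class with at most one table. -/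
theorem rowDefect_nonneg_of_subsingleton {n : ℕ} {r : Fin 3 → ℕ} {c : Fin n → ℕ}
    (hs : ∀ X Y : Omega r c, X = Y) (f : Omega r c → ℝ) : 0 ≤ rowDefect f := by
  have h0 : ∑ X, (f X - (∑ Y, f Y) / (Fintype.card (Omega r c) : ℝ)) ^ 2 = 0 := by
    apply Finset.sum_eq_zero
    intro X _
    have h1 : ∑ Y, f Y = f X := by
      rw [Finset.sum_eq_single X (fun Y _ hY => absurd (hs Y X) hY)
        (fun hX => absurd (Finset.mem_univ X) hX)]
    have h2 : Fintype.card (Omega r c) = 1 :=
      Fintype.card_eq_one_iff.2 ⟨X, fun Y => hs Y X⟩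
    rw [h1, h2]
    simp
  unfold rowDefect
  rw [h0, sub_zero]
  exact Finset.sum_nonneg (fun k _ => Finset.sum_nonneg (fun X _ => sq_nonneg _))

/-- The defect is invariant under a bijection of classes that preserves the relations
`same k-th row`. -/
theorem rowDefect_equiv {n n' : ℕ} {r r' : Fin 3 → ℕ} {c : Fin n → ℕ} {c' : Fin n' → ℕ}
    (e : Omega r c ≃ Omega r' c')
    (he : ∀ (k : Fin 3) (X Y : Omega r c), X.1 k = Y.1 k ↔ (e X).1 k = (e Y).1 k)
    (g : Omega r' c' → ℝ) : rowDefect (fun X => g (e X)) = rowDefect g := by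
  unfold rowDefect
  have hsum : ∑ Y, g (e Y) = ∑ w, g w := Equiv.sum_comp e g
  have hcard : Fintype.card (Omega r c) = Fintype.card (Omega r' c') := Fintype.card_congr e
  have hL : ∑ X, (g (e X) - (∑ Y, g (e Y)) / (Fintype.card (Omega r c) : ℝ)) ^ 2
      = ∑ w, (g w - (∑ v, g v) / (Fintype.card (Omega r' c') : ℝ)) ^ 2 := by
    rw [hsum, hcard]
    exact Equiv.sum_comp e (fun w => (g w - (∑ v, g v) / (Fintype.card (Omega r' c') : ℝ)) ^ 2)
  have hR : ∀ k : Fin 3,
      ∑ X, (g (e X) - avgRel (fun X Y : Omega r c => X.1 k = Y.1 k) (fun X => g (e X)) X) ^ 2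
        = ∑ w, (g w - avgRel (fun X Y : Omega r' c' => X.1 k = Y.1 k) g w) ^ 2 := by
    intro k
    rw [← Equiv.sum_comp e
      (fun w => (g w - avgRel (fun X Y : Omega r' c' => X.1 k = Y.1 k) g w) ^ 2)]
    refine Finset.sum_congr rfl (fun X _ => ?_)
    rw [Vale.Agent.H23.CT.twocol_avgRel_equiv e (fun X Y : Omega r c => X.1 k = Y.1 k)
      (fun X Y : Omega r' c' => X.1 k = Y.1 k) (fun X Y => he k X Y) g X]
  rw [hL, Finset.sum_congr rfl (fun k _ => hR k)]

/-- In a class whose column sums vanish outside the columns `a`, `b`, every table vanishes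
outside these two columns. -/
theorem tc_entry_zero {n : ℕ} {r : Fin 3 → ℕ} {c : Fin n → ℕ} (a b : Fin n)
    (hc : ∀ l, l ≠ a → l ≠ b → c l = 0) (X : Omega r c) (k : Fin 3) (l : Fin n)
    (hla : l ≠ a) (hlb : l ≠ b) : X.1 k l = 0 := by
  have h1 := entry_le_col X k l
  have h2 := hc l hla hlb
  omega

theorem tc_row {n : ℕ} {r : Fin 3 → ℕ} {c : Fin n → ℕ} (a b : Fin n) (hab : a ≠ b)
    (hc : ∀ l, l ≠ a → l ≠ b → c l = 0) (X : Omega r c) (k : Fin 3) :
    X.1 k a + X.1 k b = r k := by
  rw [← X.2.1 k]
  exact (Fintype.sum_eq_add a b hab (fun l hl => tc_entry_zero a b hc X k l hl.1 hl.2)).symm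

theorem tc_fwd_aux {n : ℕ} {r : Fin 3 → ℕ} {c : Fin n → ℕ} (a b : Fin n) (hab : a ≠ b)
    (hc : ∀ l, l ≠ a → l ≠ b → c l = 0) (X : Omega r c) :
    (∀ k : Fin 3, ∑ j : Fin 2, (if j = 0 then X.1 k a else X.1 k b) = r k) ∧
      ∀ j : Fin 2, ∑ k : Fin 3, (if j = 0 then X.1 k a else X.1 k b)
        = if j = 0 then c a else c b := by
  have h10 : ¬ ((1 : Fin 2) = 0) := by decide
  constructor
  · intro k
    rw [Fin.sum_univ_two, if_pos rfl, if_neg h10]
    exact tc_row a b hab hc X k
  · intro j
    by_cases hj : j = 0
    · simp only [hj, if_true]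
      exact X.2.2 a
    · simp only [hj, if_false]
      exact X.2.2 b

/-- The two columns `a`, `b` of a table, as a table with two columns. -/
def tc_fwd {n : ℕ} {r : Fin 3 → ℕ} {c : Fin n → ℕ} (a b : Fin n) (hab : a ≠ b)
    (hc : ∀ l, l ≠ a → l ≠ b → c l = 0) (X : Omega r c) :
    Omega r (fun j : Fin 2 => if j = 0 then c a else c b) :=
  ⟨fun k j => if j = 0 then X.1 k a else X.1 k b, tc_fwd_aux a b hab hc X⟩

theorem tc_bwd_aux {n : ℕ} {r : Fin 3 → ℕ} {c : Fin n → ℕ} (a b : Fin n) (hab : a ≠ b)
    (hc : ∀ l, l ≠ a → l ≠ b → c l = 0)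
    (Y : Omega r (fun j : Fin 2 => if j = 0 then c a else c b)) :
    (∀ k : Fin 3, ∑ l : Fin n, (if l = a then Y.1 k 0 else if l = b then Y.1 k 1 else 0) = r k) ∧
      ∀ l : Fin n, ∑ k : Fin 3, (if l = a then Y.1 k 0 else if l = b then Y.1 k 1 else 0)
        = c l := by
  have h10 : ¬ ((1 : Fin 2) = 0) := by decide
  have hba : ¬ b = a := fun e => hab e.symm
  constructor
  · intro k
    rw [Fintype.sum_eq_add a b hab]
    · rw [if_pos rfl, if_neg hba, if_pos rfl]
      have h := Y.2.1 k
      rw [Fin.sum_univ_two] at h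
      exact h
    · intro l hl
      rw [if_neg hl.1, if_neg hl.2]
  · intro l
    by_cases hla : l = a
    · simp only [hla, if_true]
      have h := Y.2.2 0
      simp only [if_true] at h
      exact h
    · by_cases hlb : l = b
      · simp only [hlb, if_neg hba, if_true]
        have h := Y.2.2 1
        simp only [if_neg h10] at h
        exact h
      · simp only [if_neg hla, if_neg hlb, Finset.sum_const_zero]
        exact (hc l hla hlb).symm

/-- The table with columns `a`, `b` given by a table with two columns, and zero elsewhere. -/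
def tc_bwd {n : ℕ} {r : Fin 3 → ℕ} {c : Fin n → ℕ} (a b : Fin n) (hab : a ≠ b)
    (hc : ∀ l, l ≠ a → l ≠ b → c l = 0)
    (Y : Omega r (fun j : Fin 2 => if j = 0 then c a else c b)) : Omega r c :=
  ⟨fun k l => if l = a then Y.1 k 0 else if l = b then Y.1 k 1 else 0, tc_bwd_aux a b hab hc Y⟩

/-- A class whose column sums vanish outside two columns `a ≠ b` is a class of tables with two
columns. -/
def tc_equiv {n : ℕ} {r : Fin 3 → ℕ} {c : Fin n → ℕ} (a b : Fin n) (hab : a ≠ b)
    (hc : ∀ l, l ≠ a → l ≠ b → c l = 0) :
    Omega r c ≃ Omega r (fun j : Fin 2 => if j = 0 then c a else c b) where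
  toFun := tc_fwd a b hab hc
  invFun := tc_bwd a b hab hc
  left_inv X := by
    apply Subtype.ext
    funext k l
    show (if l = a then (if (0 : Fin 2) = 0 then X.1 k a else X.1 k b)
      else if l = b then (if (1 : Fin 2) = 0 then X.1 k a else X.1 k b) else 0) = X.1 k l
    have h10 : ¬ ((1 : Fin 2) = 0) := by decide
    by_cases hla : l = a
    · rw [if_pos hla, if_pos rfl, hla]
    · by_cases hlb : l = b
      · rw [if_neg hla, if_pos hlb, if_neg h10, hlb]
      · rw [if_neg hla, if_neg hlb]
        exact (tc_entry_zero a b hc X k l hla hlb).symm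
  right_inv Y := by
    apply Subtype.ext
    funext k j
    show (if j = 0 then (if a = a then Y.1 k 0 else if a = b then Y.1 k 1 else 0)
      else (if b = a then Y.1 k 0 else if b = b then Y.1 k 1 else 0)) = Y.1 k j
    have hba : ¬ b = a := fun e => hab e.symm
    rw [if_pos rfl, if_neg hba, if_pos rfl]
    by_cases hj : j = 0
    · rw [if_pos hj, hj]
    · rw [if_neg hj]
      have hj1 : j = 1 := by
        apply Fin.ext
        have h1 : j.val ≠ 0 := fun h => hj (Fin.ext h)
        have h2 := j.isLt
        simp only [Fin.val_one]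
        omega
      rw [hj1]

theorem tc_equiv_val {n : ℕ} {r : Fin 3 → ℕ} {c : Fin n → ℕ} (a b : Fin n) (hab : a ≠ b)
    (hc : ∀ l, l ≠ a → l ≠ b → c l = 0) (X : Omega r c) (k : Fin 3) (j : Fin 2) :
    (tc_equiv a b hab hc X).1 k j = if j = 0 then X.1 k a else X.1 k b := rfl

theorem tc_rel {n : ℕ} {r : Fin 3 → ℕ} {c : Fin n → ℕ} (a b : Fin n) (hab : a ≠ b)
    (hc : ∀ l, l ≠ a → l ≠ b → c l = 0) (k : Fin 3) (X Y : Omega r c) :
    X.1 k = Y.1 k ↔ (tc_equiv a b hab hc X).1 k = (tc_equiv a b hab hc Y).1 k := by
  have h10 : ¬ ((1 : Fin 2) = 0) := by decide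
  constructor
  · intro h
    funext j
    rw [tc_equiv_val, tc_equiv_val, h]
  · intro h
    funext l
    have h0 := congrFun h 0
    have h1 := congrFun h 1
    rw [tc_equiv_val, tc_equiv_val, if_pos rfl, if_pos rfl] at h0
    rw [tc_equiv_val, tc_equiv_val, if_neg h10, if_neg h10] at h1
    by_cases hla : l = a
    · rw [hla]
      exact h0
    · by_cases hlb : l = b
      · rw [hlb]
        exact h1
      · rw [tc_entry_zero a b hc X k l hla hlb, tc_entry_zero a b hc Y k l hla hlb]

/-- The defect is nonnegative on a class whose column sums vanish outside two columns. -/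
theorem rowDefect_nonneg_two_columns {n : ℕ} {r : Fin 3 → ℕ} {c : Fin n → ℕ} (a b : Fin n)
    (hab : a ≠ b) (hc : ∀ l, l ≠ a → l ≠ b → c l = 0) (f : Omega r c → ℝ) :
    0 ≤ rowDefect f := by
  have key := Vale.Agent.H23.CT.threeRowGap_two_columns r
    (fun j : Fin 2 => if j = 0 then c a else c b)
    (fun Y => f ((tc_equiv a b hab hc).symm Y))
  have h1 := rowDefect_equiv (tc_equiv a b hab hc) (tc_rel a b hab hc)
    (fun Y => f ((tc_equiv a b hab hc).symm Y))
  have h2 : (fun X => f ((tc_equiv a b hab hc).symm (tc_equiv a b hab hc X))) = f := by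
    funext X
    rw [Equiv.symm_apply_apply]
  rw [h2] at h1
  rw [h1]
  unfold rowDefect
  linarith

/-- A class of tables with fewer than two columns has at most one table. -/
theorem tc_subsingleton {n : ℕ} {r : Fin 3 → ℕ} {c : Fin n → ℕ} (hn : n < 2)
    (X Y : Omega r c) : X = Y := by
  have hX : ∀ (Z : Omega r c) (k : Fin 3) (l : Fin n), Z.1 k l = r k := by
    intro Z k l
    have h := Z.2.1 k
    rw [Finset.sum_eq_single l
      (fun l' _ hne => absurd (Fin.ext (by have := l.isLt; have := l'.isLt; omega)) hne)
      (fun hl => absurd (Finset.mem_univ l) hl)] at h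
    exact h
  apply Subtype.ext
  funext k l
  rw [hX X k l, hX Y k l]

/-- The triangle-cover hypothesis implies that the defect of the three-row inequality is
nonnegative on every class (induction on the total of the row sums). -/
theorem rowDefect_nonneg_of_triCover (h : TriCoverHyp) :
    ∀ (N n : ℕ) (r : Fin 3 → ℕ) (c : Fin n → ℕ), ∑ k, r k = N →
      ∀ f : Omega r c → ℝ, 0 ≤ rowDefect f := by
  intro N
  induction N using Nat.strong_induction_on with
  | _ N ih =>
    intro n r c hN f
    by_cases hz : ∃ k, r k = 0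
    · obtain ⟨k0, hk0⟩ := hz
      exact rowDefect_nonneg_of_row_zero k0 hk0 f
    · have hr : ∀ k, 1 ≤ r k := fun k => Nat.one_le_iff_ne_zero.2 (fun h0 => hz ⟨k, h0⟩)
      by_cases hS : 2 < (univ.filter (fun l : Fin n => 1 ≤ c l)).card
      · obtain ⟨i, j, p, hi, hj, hp, hij, hip, hjp⟩ := Finset.two_lt_card_iff.1 hS
        have hci : 1 ≤ c i := (Finset.mem_filter.1 hi).2
        have hcj : 1 ≤ c j := (Finset.mem_filter.1 hj).2
        have hcp : 1 ≤ c p := (Finset.mem_filter.1 hp).2
        obtain ⟨t, ht0, ht1, ht2⟩ : ∃ t : Fin 3 → Fin n, t 0 = i ∧ t 1 = j ∧ t 2 = p :=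
          ⟨fun k => if k = 0 then i else if k = 1 then j else p, rfl, rfl, rfl⟩
        have ht : Function.Injective t := by
          intro x y hxy
          fin_cases x <;> fin_cases y <;>
            simp only [Fin.zero_eta, Fin.mk_one, Fin.reduceFinMk, ht0, ht1, ht2] at hxy <;>
            first
              | rfl
              | exact absurd hxy hij
              | exact absurd hxy hip
              | exact absurd hxy hjp
              | exact absurd hxy.symm hij
              | exact absurd hxy.symm hip
              | exact absurd hxy.symm hjp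
        have hct : ∀ k, 1 ≤ c (t k) := by
          intro k
          fin_cases k
          · simp only [Fin.zero_eta, ht0]
            exact hci
          · simp only [Fin.mk_one, ht1]
            exact hcj
          · simp only [Fin.reduceFinMk, ht2]
            exact hcp
        clear hS hi hj hp hci hcj hcp
        obtain ⟨r', rfl⟩ : ∃ r' : Fin 3 → ℕ, r = fun k => r' k + 1 :=
          ⟨fun k => r k - 1, by
            funext k
            have := hr k
            show r k = r k - 1 + 1
            omega⟩
        obtain ⟨c', rfl⟩ : ∃ c' : Fin n → ℕ,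
            c = fun l => c' l + if ∃ k, t k = l then 1 else 0 :=
          ⟨fun l => c l - if ∃ k, t k = l then 1 else 0, by
            funext l
            show c l = c l - (if ∃ k, t k = l then 1 else 0)
              + (if ∃ k, t k = l then 1 else 0)
            by_cases hl : ∃ k, t k = l
            · obtain ⟨k, hk⟩ := hl
              have h1 := hct k
              rw [hk] at h1
              rw [if_pos ⟨k, hk⟩]
              omega
            · rw [if_neg hl]
              omega⟩
        have hstep := h n r' c' t ht f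
        have hlt : ∑ k, r' k < N := by
          rw [← hN, Fin.sum_univ_three, Fin.sum_univ_three]
          omega
        have hnn : ∀ σ : Equiv.Perm (Fin 3),
            0 ≤ rowDefect (fun η : Omega r' c' => f (triShift t ht σ η)) :=
          fun σ => ih (∑ k, r' k) hlt n r' c' rfl _
        have hsum := Finset.sum_nonneg (fun σ (_ : σ ∈ (univ : Finset (Equiv.Perm (Fin 3)))) =>
          hnn σ)
        linarith
      · by_cases hn : n < 2
        · exact rowDefect_nonneg_of_subsingleton (tc_subsingleton hn) f
        · have hcard : (univ.filter (fun l : Fin n => 1 ≤ c l)).card ≤ 2 := by omega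
          have huniv : 2 ≤ (univ : Finset (Fin n)).card := by
            rw [Finset.card_univ, Fintype.card_fin]
            omega
          obtain ⟨u, hSu, _, hu2⟩ := Finset.exists_subsuperset_card_eq
            (Finset.subset_univ (univ.filter (fun l : Fin n => 1 ≤ c l))) hcard huniv
          obtain ⟨a, b, hab, hu⟩ := Finset.card_eq_two.1 hu2
          have hc : ∀ l, l ≠ a → l ≠ b → c l = 0 := by
            intro l hla hlb
            by_contra hne
            have hmem : l ∈ univ.filter (fun l : Fin n => 1 ≤ c l) :=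
              Finset.mem_filter.2 ⟨Finset.mem_univ l, Nat.one_le_iff_ne_zero.2 hne⟩
            have hmem2 := hSu hmem
            rw [hu, Finset.mem_insert, Finset.mem_singleton] at hmem2
            rcases hmem2 with h1 | h1
            · exact hla h1
            · exact hlb h1
          exact rowDefect_nonneg_two_columns a b hab hc f

/-- The triangle-cover hypothesis implies the three-row gap hypothesis `ThreeRowGap`. -/
theorem threeRowGap_of_triCover (h : TriCoverHyp) : ThreeRowGap := by
  intro n r c f
  have h1 := rowDefect_nonneg_of_triCover h (∑ k, r k) n r c rfl f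
  unfold rowDefect at h1
  linarith

end Vale.Agent.H25.CT
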