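import Vale.Agent.H91.CT.BoxLift

/-!
P328: Lagrangian duality for the closed-form penalty (a tool for dual proofs).

Abstract layered framework of `Vale.Agent.H91.CT.Sur2Aux` (classes of an equivalence relation
`R`, level `T`, depth `D`) and the box-slice classes of `Vale.Agent.H14.CT`.  For a centred `f`
put `T(f) := |S f|^2 + pen f` (`S` = class average, `pen` = closed-form penalty).  With
`Λ := E[· | level]` (the average over the points of the same level):

* weak duality: `2 <f, ψ> - |ψ - Λ ψ|^2 ≤ T(f)` for every class function `ψ`;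
* strong duality: there is a class function `ψ` with `T(f) = 2 <f, ψ> - |ψ - Λ ψ|^2`.

So `T(f) = sup_ψ [2 <f, ψ> - |ψ - Λ ψ|^2]` over the class (line) functions `ψ`, and
`QB f - penB f = min_ψ [|f - ψ|^2 - |Λ ψ|^2]`.

Paper proof.  Weak: for an admissible lift `w` (class averages of `f`, zero level sums)
`<f, ψ> = <w, ψ> = <w, ψ - Λ ψ> ≤ (|w|^2 + |ψ - Λ ψ|^2) / 2`, and the optimal lift has
`|w|^2 = T(f)`.  Strong: the optimal lift is `w = u - φ (level)` with the class function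
`u = S f + K (depth)`, `K d = ∑_{j ≤ d} κ_j`, `φ t = t κ_t + K t`; then `<f, u> = <w, u> =
|w|^2 + <w, φ (level)> = |w|^2` and `|u - Λ u|^2 ≤ |u - φ (level)|^2 = |w|^2`.
-/

namespace Vale.Agent.H25.CT

open Finset Vale.Agent.H90 Vale.Agent.H91.CT

set_option linter.unusedSectionVars false

section abs

variable {Ω : Type*} [Fintype Ω] [DecidableEq Ω]

/-- The relation `same level`. -/
def LevRel (T : Ω → ℕ) (X Y : Ω) : Prop := T X = T Y

instance instDecLevRel (T : Ω → ℕ) : DecidableRel (LevRel T) := fun X Y => by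
  unfold LevRel; infer_instance

theorem levRel_equiv (T : Ω → ℕ) : Equivalence (LevRel T) :=
  ⟨fun _ => rfl, fun h => h.symm, fun h1 h2 => h1.trans h2⟩

/-- The average over the classes of an equivalence relation is the best approximation by
invariant functions. -/
theorem avgRel_best (S : Ω → Ω → Prop) [DecidableRel S] (hS : Equivalence S) (u g : Ω → ℝ)
    (hg : ∀ X Y, S X Y → g X = g Y) :
    ∑ X, (u X - avgRel S u X) ^ 2 ≤ ∑ X, (u X - g X) ^ 2 := by
  have hinv : avgRel S (avgRel S u - g) = avgRel S u - g := by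
    rw [avgRel_sub, avgRel_idem hS, avgRel_eq_self hS g hg]
  have hcross : dot (u - avgRel S u) (avgRel S u - g) = 0 := by
    rw [← hinv, avgRel_dot hS, avgRel_sub, avgRel_idem hS, sub_self, dot_zero_left]
  unfold dot at hcross
  have e : ∀ X, (u X - g X) ^ 2 = (u X - avgRel S u X) ^ 2
      + 2 * ((u - avgRel S u) X * (avgRel S u - g) X) + (avgRel S u X - g X) ^ 2 := by
    intro X
    simp only [Pi.sub_apply]
    ring
  rw [Finset.sum_congr rfl (fun X _ => e X), Finset.sum_add_distrib, Finset.sum_add_distrib,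
    ← Finset.mul_sum, hcross]
  have hnn : 0 ≤ ∑ X, (avgRel S u X - g X) ^ 2 := Finset.sum_nonneg (fun X _ => sq_nonneg _)
  linarith

/-- Pythagoras for the average over the classes of an equivalence relation. -/
theorem avgRel_pyth (S : Ω → Ω → Prop) [DecidableRel S] (hS : Equivalence S) (u : Ω → ℝ) :
    ∑ X, (u X - avgRel S u X) ^ 2 = ∑ X, u X ^ 2 - ∑ X, avgRel S u X ^ 2 := by
  have h1 : ∑ X, u X * avgRel S u X = ∑ X, avgRel S u X ^ 2 := by
    have h := avgRel_dot hS u (avgRel S u)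
    rw [avgRel_idem hS] at h
    unfold dot at h
    rw [h]
    exact Finset.sum_congr rfl (fun X _ => by ring)
  have e : ∀ X, (u X - avgRel S u X) ^ 2
      = u X ^ 2 - 2 * (u X * avgRel S u X) + avgRel S u X ^ 2 := by
    intro X
    ring
  rw [Finset.sum_congr rfl (fun X _ => e X), Finset.sum_add_distrib, Finset.sum_sub_distrib,
    ← Finset.mul_sum, h1]
  ring

variable (R : Ω → Ω → Prop) [DecidableRel R] (T D : Ω → ℕ)

/-- A function with zero level sums has zero level averages. -/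
theorem avgRel_lev_zero (w : Ω → ℝ)
    (hw : ∀ t : ℕ, ∑ X ∈ univ.filter (fun X => T X = t), w X = 0) :
    avgRel (LevRel T) w = 0 := by
  funext X
  unfold avgRel
  have e : univ.filter (fun Y => LevRel T X Y) = univ.filter (fun Y => T Y = T X) := by
    ext Y
    simp only [mem_filter, mem_univ, true_and]
    unfold LevRel
    exact eq_comm
  rw [e, hw (T X)]
  simp

/-- Weak duality for an admissible lift. -/
theorem dual_le_lift (hR : Equivalence R) (f w ψ : Ω → ℝ)
    (hw : ∀ t : ℕ, ∑ X ∈ univ.filter (fun X => T X = t), w X = 0)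
    (hwf : avgRel R w = avgRel R f) (hψ : ∀ X Y, R X Y → ψ X = ψ Y) :
    2 * ∑ X, f X * ψ X - ∑ X, (ψ X - avgRel (LevRel T) ψ X) ^ 2 ≤ ∑ X, w X ^ 2 := by
  have hψ' : avgRel R ψ = ψ := avgRel_eq_self hR ψ hψ
  have h1 : dot f ψ = dot w ψ := by
    rw [← hψ', avgRel_dot hR, avgRel_dot hR, hwf]
  have h2 : dot w (avgRel (LevRel T) ψ) = 0 := by
    rw [avgRel_dot (levRel_equiv T), avgRel_lev_zero T w hw, dot_zero_left]
  unfold dot at h1 h2
  rw [h1]
  have e : ∀ X, w X ^ 2 - (2 * (w X * ψ X) - (ψ X - avgRel (LevRel T) ψ X) ^ 2)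
      = (w X - (ψ X - avgRel (LevRel T) ψ X)) ^ 2 - 2 * (w X * avgRel (LevRel T) ψ X) := by
    intro X
    ring
  have h3 : ∑ X, (w X ^ 2 - (2 * (w X * ψ X) - (ψ X - avgRel (LevRel T) ψ X) ^ 2))
      = ∑ X, (w X - (ψ X - avgRel (LevRel T) ψ X)) ^ 2 := by
    rw [Finset.sum_congr rfl (fun X _ => e X), Finset.sum_sub_distrib, ← Finset.mul_sum, h2]
    ring
  have h4 : 0 ≤ ∑ X, (w X - (ψ X - avgRel (LevRel T) ψ X)) ^ 2 :=
    Finset.sum_nonneg (fun X _ => sq_nonneg _)
  rw [Finset.sum_sub_distrib, Finset.sum_sub_distrib, ← Finset.mul_sum] at h3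
  linarith

/-- The partial sums of the Helmert coefficients. -/
noncomputable def Kap (f : Ω → ℝ) (d : ℕ) : ℝ := ∑ j ∈ Ico 1 (d + 1), Sur2Aux.kap T D f j

/-- The level part of the optimal lift. -/
noncomputable def phiLev (f : Ω → ℝ) (t : ℕ) : ℝ := (t : ℝ) * Sur2Aux.kap T D f t + Kap T D f t

/-- The correction of the optimal lift is a function of the level minus a function of the
depth. -/
theorem corr_eq (hR : Equivalence R)
    (hCL : ∀ (X : Ω) (G : ℕ → ℝ),
      ∑ Y ∈ univ.filter (fun Y => R X Y), G (T Y) = ∑ s ∈ range (D X + 1), G s)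
    (f : Ω → ℝ) (X : Ω) :
    Sur2Aux.corr T D f X = phiLev T D f (T X) - Kap T D f (D X) := by
  have htd : T X ≤ D X := Sur2Aux.T_le_D R T D hR hCL X
  unfold Sur2Aux.corr phiLev Kap
  have hIcc : Icc 1 (D X) = Ico 1 (D X + 1) := by
    ext j
    simp only [mem_Icc, mem_Ico]
    omega
  rw [hIcc, ← Finset.sum_Ico_consecutive _ (Nat.succ_le_succ (Nat.zero_le (T X)))
    (Nat.succ_le_succ htd), ← Finset.sum_Ico_consecutive (fun j => Sur2Aux.kap T D f j)
    (Nat.succ_le_succ (Nat.zero_le (T X))) (Nat.succ_le_succ htd)]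
  have e1 : ∑ j ∈ Ico 1 (T X + 1), Sur2Aux.kap T D f j * Sur2Aux.hh j (T X)
      = (T X : ℝ) * Sur2Aux.kap T D f (T X) := by
    have e : ∀ j ∈ Ico 1 (T X + 1), Sur2Aux.kap T D f j * Sur2Aux.hh j (T X)
        = if j = T X then (T X : ℝ) * Sur2Aux.kap T D f (T X) else 0 := by
      intro j hj
      by_cases hjt : j = T X
      · rw [if_pos hjt, hjt, Sur2Aux.hh_self]
        ring
      · rw [if_neg hjt, Sur2Aux.hh_gt (by
          have := (mem_Ico.1 hj).2
          omega), mul_zero]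
    rw [Finset.sum_congr rfl e, Finset.sum_ite_eq']
    by_cases h0 : T X ∈ Ico 1 (T X + 1)
    · rw [if_pos h0]
    · rw [if_neg h0]
      have : T X = 0 := by
        rw [mem_Ico] at h0
        omega
      rw [this]
      simp
  have e2 : ∑ j ∈ Ico (T X + 1) (D X + 1), Sur2Aux.kap T D f j * Sur2Aux.hh j (T X)
      = - ∑ j ∈ Ico (T X + 1) (D X + 1), Sur2Aux.kap T D f j := by
    rw [← Finset.sum_neg_distrib]
    refine Finset.sum_congr rfl (fun j hj => ?_)
    rw [Sur2Aux.hh_lt (by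
      have := (mem_Ico.1 hj).1
      omega)]
    ring
  rw [e1, e2]
  ring

/-- Strong duality in the abstract layered framework: a class function `u` with
`T(f) = 2 <f, u> - |u - Λ u|^2`. -/
theorem dual_exists (hR : Equivalence R) (hD : ∀ X Y, R X Y → D X = D Y)
    (hCL : ∀ (X : Ω) (G : ℕ → ℝ),
      ∑ Y ∈ univ.filter (fun Y => R X Y), G (T Y) = ∑ s ∈ range (D X + 1), G s)
    (M : ℕ) (hM : ∀ X, D X ≤ M) (f : Ω → ℝ) (hf : ∑ X, f X = 0) :
    ∃ u : Ω → ℝ, (∀ X Y, R X Y → u X = u Y) ∧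
      ∑ X, avgRel R f X ^ 2
        + ∑ d ∈ Icc 1 M, (∑ X ∈ univ.filter (fun X => d ≤ D X), f X) ^ 2 /
            ((d : ℝ) * (d + 1) * ((univ.filter (fun X => T X = d)).card : ℝ))
      = 2 * ∑ X, f X * u X - ∑ X, (u X - avgRel (LevRel T) u X) ^ 2 := by
  -- the optimal lift
  obtain ⟨w, hw⟩ : ∃ w : Ω → ℝ, w = fun X => avgRel R f X - Sur2Aux.corr T D f X := ⟨_, rfl⟩
  have hw1 : ∀ t : ℕ, ∑ X ∈ univ.filter (fun X => T X = t), w X = 0 := by
    intro t
    rw [hw]
    exact Sur2Aux.level_sum R T D hR hD hCL M hM f hf t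
  have hw2 : avgRel R w = avgRel R f := by
    have e : w = avgRel R f - Sur2Aux.corr T D f := hw
    rw [e, avgRel_sub, avgRel_idem hR, Sur2Aux.avg_corr R T D hD hCL f, sub_zero]
  have hw3 : ∑ X, w X ^ 2 = ∑ X, avgRel R f X ^ 2
        + ∑ d ∈ Icc 1 M, (∑ X ∈ univ.filter (fun X => d ≤ D X), f X) ^ 2 /
            ((d : ℝ) * (d + 1) * ((univ.filter (fun X => T X = d)).card : ℝ)) := by
    have hcross : ∑ X, avgRel R f X * Sur2Aux.corr T D f X = 0 := by
      have h := avgRel_dot hR f (Sur2Aux.corr T D f)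
      rw [Sur2Aux.avg_corr R T D hD hCL f, dot_zero_right] at h
      exact h.symm
    have e : ∀ X, w X ^ 2 = avgRel R f X ^ 2
        - 2 * (avgRel R f X * Sur2Aux.corr T D f X) + Sur2Aux.corr T D f X ^ 2 := by
      intro X
      rw [hw]
      ring
    rw [Finset.sum_congr rfl (fun X _ => e X), Finset.sum_add_distrib, Finset.sum_sub_distrib,
      ← Finset.mul_sum, hcross, Sur2Aux.corr_sq R T D hR hD hCL M hM f]
    simp only [Sur2Aux.Gam, Sur2Aux.Nn]
    ring
  -- the dual witness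
  refine ⟨fun X => avgRel R f X + Kap T D f (D X), ?_, ?_⟩
  · intro X Y hXY
    simp only
    rw [avgRel_of_rel hR f hXY, hD X Y hXY]
  · obtain ⟨u, hu⟩ : ∃ u : Ω → ℝ, u = fun X => avgRel R f X + Kap T D f (D X) := ⟨_, rfl⟩
    rw [← hu]
    have huR : ∀ X Y, R X Y → u X = u Y := by
      intro X Y hXY
      rw [hu]
      simp only
      rw [avgRel_of_rel hR f hXY, hD X Y hXY]
    have hwu : ∀ X, w X = u X - phiLev T D f (T X) := by
      intro X
      rw [hw, hu]
      simp only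
      rw [corr_eq R T D hR hCL f X]
      ring
    have hTM : ∀ X, T X ≤ M := fun X => le_trans (Sur2Aux.T_le_D R T D hR hCL X) (hM X)
    -- `<w, φ (level)> = 0`
    have hwphi : ∑ X, phiLev T D f (T X) * w X = 0 := by
      rw [Sur2Aux.sum_by_level T M hTM (phiLev T D f) w]
      refine Finset.sum_eq_zero (fun t _ => ?_)
      rw [hw1 t, mul_zero]
    -- `<f, u> = <w, u> = |w|^2`
    have hfu : ∑ X, f X * u X = ∑ X, w X ^ 2 := by
      have hu' : avgRel R u = u := avgRel_eq_self hR u huR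
      have h1 : dot f u = dot w u := by
        rw [← hu', avgRel_dot hR, avgRel_dot hR, hw2]
      unfold dot at h1
      rw [h1]
      have e : ∀ X, w X * u X = w X ^ 2 + phiLev T D f (T X) * w X := by
        intro X
        rw [hwu X]
        ring
      rw [Finset.sum_congr rfl (fun X _ => e X), Finset.sum_add_distrib, hwphi, add_zero]
    -- `|u - Λ u|^2 ≤ |w|^2`
    have hbest : ∑ X, (u X - avgRel (LevRel T) u X) ^ 2 ≤ ∑ X, w X ^ 2 := by
      have h := avgRel_best (LevRel T) (levRel_equiv T) u (fun X => phiLev T D f (T X))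
        (fun X Y hXY => by
          have hT : T X = T Y := hXY
          show phiLev T D f (T X) = phiLev T D f (T Y)
          rw [hT])
      refine le_trans h (le_of_eq ?_)
      refine Finset.sum_congr rfl (fun X _ => ?_)
      rw [hwu X]
    have hweak := dual_le_lift R T hR f w u hw1 hw2 huR
    rw [← hw3]
    linarith

end abs

/-! ### Box-slice classes -/

section box

open Vale.Agent.H14.CT

variable {n : ℕ} {s : Fin n → ℕ} {ρ : ℕ}

/-- Weak duality on a box-slice class, for any level function `T'`: for a centred `f` and a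
line function `ψ`, `2 <f, ψ> - |ψ - Λ ψ|^2 ≤ |S f|^2 + penB f`. -/
theorem penB_dual_le' (a b : Fin n) (hab : a ≠ b) (T' : Box n s ρ → ℕ)
    (hCL' : ∀ (z : Box n s ρ) (G : ℕ → ℝ),
      ∑ z' ∈ univ.filter (fun z' => LineRel a b z z'), G (T' z')
        = ∑ t ∈ range (depthB a b z + 1), G t)
    (f : Box n s ρ → ℝ) (hf : ∑ z, f z = 0) (ψ : Box n s ρ → ℝ)
    (hψ : ∀ z w, LineRel a b z w → ψ z = ψ w) :
    2 * ∑ z, f z * ψ z - ∑ z, (ψ z - avgRel (LevRel T') ψ z) ^ 2
      ≤ ∑ z, avgRel (LineRel a b) f z ^ 2 + penB a b f := by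
  have hR := lineRel_equiv (s := s) (ρ := ρ) a b
  obtain ⟨w, h1, h2, h3⟩ := exists_lift_box' a b hab T' hCL' f hf
  rw [← h3]
  exact dual_le_lift (LineRel a b) T' hR f w ψ h1 h2 hψ

/-- Weak duality on a box-slice class with the standard level. -/
theorem penB_dual_le (a b : Fin n) (hab : a ≠ b)
    (f : Box n s ρ → ℝ) (hf : ∑ z, f z = 0) (ψ : Box n s ρ → ℝ)
    (hψ : ∀ z w, LineRel a b z w → ψ z = ψ w) :
    2 * ∑ z, f z * ψ z - ∑ z, (ψ z - avgRel (LevRel (levelB a b)) ψ z) ^ 2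
      ≤ ∑ z, avgRel (LineRel a b) f z ^ 2 + penB a b f :=
  penB_dual_le' a b hab (levelB a b) (fun z G => box_class_level a b hab z G) f hf ψ hψ

/-- Strong duality on a box-slice class, for any level function `T'`: for a centred `f` there
is a line function `ψ` with `|S f|^2 + penB f = 2 <f, ψ> - |ψ - Λ ψ|^2`. -/
theorem penB_dual_exists' (a b : Fin n) (hab : a ≠ b) (T' : Box n s ρ → ℕ)
    (hCL' : ∀ (z : Box n s ρ) (G : ℕ → ℝ),
      ∑ z' ∈ univ.filter (fun z' => LineRel a b z z'), G (T' z')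
        = ∑ t ∈ range (depthB a b z + 1), G t)
    (f : Box n s ρ → ℝ) (hf : ∑ z, f z = 0) :
    ∃ ψ : Box n s ρ → ℝ, (∀ z w, LineRel a b z w → ψ z = ψ w) ∧
      ∑ z, avgRel (LineRel a b) f z ^ 2 + penB a b f
        = 2 * ∑ z, f z * ψ z - ∑ z, (ψ z - avgRel (LevRel T') ψ z) ^ 2 := by
  have hR := lineRel_equiv (s := s) (ρ := ρ) a b
  have hD := depthB_const (s := s) (ρ := ρ) a b hab
  obtain ⟨u, hu1, hu2⟩ := dual_exists (LineRel a b) T' (depthB a b) hR hD hCL'
    (min (s a) (s b)) (fun z => depthB_le a b z) f hf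
  refine ⟨u, hu1, ?_⟩
  rw [← hu2]
  congr 1
  unfold penB
  refine Finset.sum_congr rfl (fun d _ => ?_)
  rw [card_level_eq a b hab T' hCL' d]

/-- Strong duality on a box-slice class with the standard level. -/
theorem penB_dual_exists (a b : Fin n) (hab : a ≠ b)
    (f : Box n s ρ → ℝ) (hf : ∑ z, f z = 0) :
    ∃ ψ : Box n s ρ → ℝ, (∀ z w, LineRel a b z w → ψ z = ψ w) ∧
      ∑ z, avgRel (LineRel a b) f z ^ 2 + penB a b f
        = 2 * ∑ z, f z * ψ z - ∑ z, (ψ z - avgRel (LevRel (levelB a b)) ψ z) ^ 2 :=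
  penB_dual_exists' a b hab (levelB a b) (fun z G => box_class_level a b hab z G) f hf

/-- The slack of one pair in dual form (any level function): for a centred `f` there is a line
function `ψ` with `QB f - penB f = |f - ψ|^2 - |Λ ψ|^2`. -/
theorem slack_pair_dual' (a b : Fin n) (hab : a ≠ b) (T' : Box n s ρ → ℕ)
    (hCL' : ∀ (z : Box n s ρ) (G : ℕ → ℝ),
      ∑ z' ∈ univ.filter (fun z' => LineRel a b z z'), G (T' z')
        = ∑ t ∈ range (depthB a b z + 1), G t)
    (f : Box n s ρ → ℝ) (hf : ∑ z, f z = 0) :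
    ∃ ψ : Box n s ρ → ℝ, (∀ z w, LineRel a b z w → ψ z = ψ w) ∧
      QB a b f - penB a b f
        = ∑ z, (f z - ψ z) ^ 2 - ∑ z, avgRel (LevRel T') ψ z ^ 2 := by
  obtain ⟨ψ, h1, h2⟩ := penB_dual_exists' a b hab T' hCL' f hf
  refine ⟨ψ, h1, ?_⟩
  have h3 := avgRel_pyth (LevRel T') (levRel_equiv T') ψ
  have e : ∀ z, (f z - ψ z) ^ 2 = f z ^ 2 - 2 * (f z * ψ z) + ψ z ^ 2 := by
    intro z
    ring
  rw [QB_eq, Finset.sum_congr rfl (fun z _ => e z), Finset.sum_add_distrib,
    Finset.sum_sub_distrib, ← Finset.mul_sum]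
  linarith

/-- The slack of one pair is at most `|f - ψ|^2 - |Λ ψ|^2` for every line function `ψ`
(any level function). -/
theorem slack_pair_le_dual' (a b : Fin n) (hab : a ≠ b) (T' : Box n s ρ → ℕ)
    (hCL' : ∀ (z : Box n s ρ) (G : ℕ → ℝ),
      ∑ z' ∈ univ.filter (fun z' => LineRel a b z z'), G (T' z')
        = ∑ t ∈ range (depthB a b z + 1), G t)
    (f : Box n s ρ → ℝ) (hf : ∑ z, f z = 0) (ψ : Box n s ρ → ℝ)
    (hψ : ∀ z w, LineRel a b z w → ψ z = ψ w) :
    QB a b f - penB a b f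
      ≤ ∑ z, (f z - ψ z) ^ 2 - ∑ z, avgRel (LevRel T') ψ z ^ 2 := by
  have h2 := penB_dual_le' a b hab T' hCL' f hf ψ hψ
  have h3 := avgRel_pyth (LevRel T') (levRel_equiv T') ψ
  have e : ∀ z, (f z - ψ z) ^ 2 = f z ^ 2 - 2 * (f z * ψ z) + ψ z ^ 2 := by
    intro z
    ring
  rw [QB_eq, Finset.sum_congr rfl (fun z _ => e z), Finset.sum_add_distrib,
    Finset.sum_sub_distrib, ← Finset.mul_sum]
  linarith

end box

end Vale.Agent.H25.CT
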