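import Vale.Agent.H88.CT.Final
import Vale.Agent.H91.CT.Transfer

/-!
# P328: the three-row reduction, relativised to the row sums that occur

The proofs of the mixing bounds for the row-pair chain and the `2 x 2` heat-bath chain use the
three-row hypothesis only inside the class at hand (`TripleHypAt r c`), and the transfer from
classes of `3 x n` tables uses the three-row gap only on classes whose three row sums are row
sums of `r` (`tripleHypAt_of_rows`).  Consequences: the hypothesis restricted to three-row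
classes with row sums in a set `S` (`ThreeRowGapOn S`) gives the mixing bounds on all classes
with row sums in `S`, and the hypothesis for three EQUAL row sums (`ThreeRowGapEq`) gives them on
all classes with equal row sums (`rowPair_mixing_time_eq`, `block_mixing_time_eq`).

The proofs are those of `Vale.Agent.H88.CT.RowPair`, `Block`, `Final` and of
`Vale.Agent.H91.CT.Transfer`, with the hypothesis localised; nothing else is changed.
-/

namespace Vale.Agent.H25.CT

open Finset Vale.Agent.H90 Vale.Agent.H88.CT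

set_option linter.unusedSectionVars false

variable {m n : ℕ}

/-- The three-row gap inequality on ONE class of `3 x n` contingency tables: the variance of a
function is at most the sum over the three rows of its mean conditional variance given that row
(sums over the class, not normalised). -/
def ThreeRowGapAt (r : Fin 3 → ℕ) (c : Fin n → ℕ) : Prop :=
  ∀ f : Omega r c → ℝ,
    ∑ X, (f X - (∑ Y, f Y) / (Fintype.card (Omega r c) : ℝ)) ^ 2
      ≤ ∑ k : Fin 3, ∑ X, (f X - avgRel (fun X Y : Omega r c => X.1 k = Y.1 k) f X) ^ 2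

/-- The three-row gap on all classes of `3 x n` tables whose three row sums lie in `S`. -/
def ThreeRowGapOn (S : Set ℕ) : Prop :=
  ∀ (n : ℕ) (r : Fin 3 → ℕ) (c : Fin n → ℕ), (∀ k, r k ∈ S) → ThreeRowGapAt r c

/-- The three-row gap on all classes of `3 x n` tables with three EQUAL row sums. -/
def ThreeRowGapEq : Prop :=
  ∀ (n ρ : ℕ) (c : Fin n → ℕ), ThreeRowGapAt (fun _ : Fin 3 => ρ) c

/-- The three-row hypothesis in fibre form inside ONE class. -/
def TripleHypAt (r : Fin m → ℕ) (c : Fin n → ℕ) : Prop :=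
  ∀ i j k : Fin m, i ≠ j → j ≠ k → i ≠ k →
    ∀ f : Omega r c → ℝ,
      ∑ X, (f X - avgRel (TriRel i j k) f X) ^ 2
        ≤ ∑ X, (f X - avgRel (RowRel i j) f X) ^ 2
          + ∑ X, (f X - avgRel (RowRel j k) f X) ^ 2
          + ∑ X, (f X - avgRel (RowRel k i) f X) ^ 2

theorem threeRowGap_iff_at : ThreeRowGap ↔ ∀ (n : ℕ) (r : Fin 3 → ℕ) (c : Fin n → ℕ),
    ThreeRowGapAt r c := Iff.rfl

theorem tripleHyp_iff_at : TripleHyp ↔ ∀ (m n : ℕ) (r : Fin m → ℕ) (c : Fin n → ℕ),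
    TripleHypAt r c := Iff.rfl

variable {r : Fin m → ℕ} {c : Fin n → ℕ}

/-- The cyclic inequality for row triples, from the three-row hypothesis. -/
theorem row_cyclic_at (hyp : TripleHypAt r c) (i j k : Fin m) (hij : i ≠ j) (hjk : j ≠ k) (hik : i ≠ k)
    (f : Omega r c → ℝ) :
    0 ≤ dot (Qrel (RowRel i j) f) (Qrel (RowRel j k) f)
      + dot (Qrel (RowRel j k) f) (Qrel (RowRel k i) f)
      + dot (Qrel (RowRel k i) f) (Qrel (RowRel i j) f) := by
  refine cyclic_of_poincare (T := TriRel (r := r) (c := c) i j k)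
    (Rows.rowRel_equiv i j) (Rows.rowRel_equiv j k) (Rows.rowRel_equiv k i)
    (Rows.triRel_equiv i j k) (rowRel_le_triRel i j k) (rowRel_le_triRel' i j k)
    (rowRel_le_triRel'' i j k) ?_ f
  intro g
  have h := hyp i j k hij hjk hik g
  rw [sum_sq_eq_dot, sum_sq_eq_dot, sum_sq_eq_dot, sum_sq_eq_dot] at h
  exact h

/-- Spectral gap of the sum of the row-pair projections, from the three-row hypothesis. -/
theorem rowPair_gap_at (hyp : TripleHypAt r c) (f : Omega r c → ℝ) (hf : ∑ X, f X = 0) :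
    2 * dot f f ≤ dot f (Ksum (fun i j : Fin m => RowRel (r := r) (c := c) i j) f) := by
  refine Ksum_gap (rel := fun i j : Fin m => RowRel (r := r) (c := c) i j)
    (fun i j => Rows.rowRel_equiv i j) (fun i j X Y => Rows.rowRel_comm i j X Y)
    (fun i j k l hik hil hjk hjl X Y Z h1 h2 => Rows.rowRel_square i j k l hik hil hjk hjl X Y Z h1 h2)
    (fun i j k l hik hil hjk hjl X Y h1 h2 => Rows.rowRel_inter i j k l hik hil hjk hjl X Y h1 h2)
    (fun i j k hij hjk hik g => row_cyclic_at hyp i j k hij hjk hik g) f ?_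
  intro g hg
  have hinv : ∀ i j : Fin m, i ≠ j → ∀ X Y : Omega r c, RowRel i j X Y → g X = g Y :=
    fun i j hij => inv_of_Qrel_eq_zero (Rows.rowRel_equiv i j) g
      (Qrel_eq_zero_of_Ksum (rel := fun i j : Fin m => RowRel (r := r) (c := c) i j)
        (fun i j => Rows.rowRel_equiv i j) g hg i j hij)
  have hconst := Rows.rowRel_inv_const g hinv
  unfold dot
  by_cases hne : Nonempty (Omega r c)
  · obtain ⟨X0⟩ := hne
    have : ∀ X, f X * g X = f X * g X0 := fun X => by rw [hconst X X0]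
    simp only [this]
    rw [← Finset.sum_mul, hf, zero_mul]
  · have : IsEmpty (Omega r c) := not_nonempty_iff.1 hne
    simp

/-- Poincare inequality for the row-pair heat-bath chain under the three-row hypothesis. -/
theorem rowPair_poincare_at (hyp : TripleHypAt r c) (hm : 2 ≤ m) (f : Omega r c → ℝ)
    (hf : ∑ X, f X = 0) :
    2 / ((m : ℝ) * (m - 1)) * ∑ X, f X ^ 2
      ≤ (1 / 2 : ℝ) * ∑ X, ∑ Y, rowPairChain r c X Y * (f X - f Y) ^ 2 := by
  rw [rowPairChain_eq, mixK_dirichlet (fun p : Fin m × Fin m => RowRel (r := r) (c := c) p.1 p.2)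
    (fun p => p.1 ≠ p.2) (fun p => Rows.rowRel_equiv p.1 p.2) _ (rowPair_weight hm) f]
  have hgap := rowPair_gap_at hyp f hf
  rw [dot_Ksum_self (rel := fun i j : Fin m => RowRel (r := r) (c := c) i j)
    (fun i j => Rows.rowRel_equiv i j) f] at hgap
  rw [Fintype.sum_prod_type]
  have e : ∑ X, f X ^ 2 = dot f f := by
    unfold dot; exact Finset.sum_congr rfl (fun X _ => by ring)
  rw [e]
  have h1 : (2 : ℝ) ≤ m := by exact_mod_cast hm
  have hpos : (0 : ℝ) < (m : ℝ) * (m - 1) := by nlinarith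
  have hw : (0 : ℝ) ≤ 1 / ((m : ℝ) * (m - 1)) := by positivity
  calc 2 / ((m : ℝ) * (m - 1)) * dot f f = 1 / ((m : ℝ) * (m - 1)) * (2 * dot f f) := by ring
    _ ≤ 1 / ((m : ℝ) * (m - 1)) * _ := mul_le_mul_of_nonneg_left hgap hw

/-- Mixing of the lazy row-pair heat-bath chain under the three-row hypothesis. -/
theorem rowPair_mixing_at (hyp : TripleHypAt r c) (hm : 2 ≤ m)
    (t : ℕ) (X : Omega r c) :
    (∑ Y, |(((1 / 2 : ℝ) • (1 + rowPairChain r c)) ^ t) X Y
        - 1 / (Fintype.card (Omega r c) : ℝ)|) ^ 2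
      ≤ (Fintype.card (Omega r c) : ℝ) * (1 - 1 / ((m : ℝ) * (m - 1))) ^ t := by
  have h1 : (2 : ℝ) ≤ m := by exact_mod_cast hm
  have hpos : (0 : ℝ) < (m : ℝ) * (m - 1) := by nlinarith
  have hK : rowPairChain r c = mixK (fun p : Fin m × Fin m => RowRel (r := r) (c := c) p.1 p.2)
      (fun p => p.1 ≠ p.2) (1 / ((m : ℝ) * (m - 1))) := rowPairChain_eq r c
  have hsymm : ∀ X Y, rowPairChain r c X Y = rowPairChain r c Y X := by
    intro X Y; rw [hK]
    exact mixK_symm (fun p : Fin m × Fin m => RowRel (r := r) (c := c) p.1 p.2)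
      (fun p => p.1 ≠ p.2) (fun p => Rows.rowRel_equiv p.1 p.2) _ X Y
  have hnn : ∀ X Y, 0 ≤ rowPairChain r c X Y := by
    intro X Y; rw [hK]
    exact mixK_nonneg (fun p : Fin m × Fin m => RowRel (r := r) (c := c) p.1 p.2)
      (fun p => p.1 ≠ p.2) _ (by positivity) X Y
  have hrow : ∀ X, ∑ Y, rowPairChain r c X Y = 1 := by
    intro X; rw [hK]
    exact mixK_row (fun p : Fin m × Fin m => RowRel (r := r) (c := c) p.1 p.2)
      (fun p => p.1 ≠ p.2) (fun p => Rows.rowRel_equiv p.1 p.2) _ (rowPair_weight hm) X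
  have hγ : 2 / ((m : ℝ) * (m - 1)) ≤ 2 := by
    rw [div_le_iff₀ hpos]; nlinarith
  have key := Vale.Agent.H12.MixCore.l1_bound (rowPairChain r c) hsymm hnn hrow
    (2 / ((m : ℝ) * (m - 1))) hγ (fun f hf => rowPair_poincare_at hyp hm f hf) t X
  have e : 1 - 2 / ((m : ℝ) * (m - 1)) / 2 = 1 - 1 / ((m : ℝ) * (m - 1)) := by
    field_simp
  rw [e] at key
  exact key

/-- Poincare inequality for the `2 x 2` heat-bath chain under the three-row hypothesis. -/
theorem block_poincare_at (hyp : TripleHypAt r c) (hm : 2 ≤ m) (hn : 2 ≤ n) (f : Omega r c → ℝ)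
    (hf : ∑ X, f X = 0) :
    4 / ((m : ℝ) * (m - 1) * ((n : ℝ) * (n - 1))) * ∑ X, f X ^ 2
      ≤ (1 / 2 : ℝ) * ∑ X, ∑ Y, blockChain r c X Y * (f X - f Y) ^ 2 := by
  have h1 : (2 : ℝ) ≤ m := by exact_mod_cast hm
  have h1' : (2 : ℝ) ≤ n := by exact_mod_cast hn
  have hpm : (0 : ℝ) < (m : ℝ) * (m - 1) := by nlinarith
  have hpn : (0 : ℝ) < (n : ℝ) * (n - 1) := by nlinarith
  have hA := rowPair_poincare_at hyp hm f hf
  have hB := block_comparison hm hn r c f
  have hw : (0 : ℝ) ≤ 2 / ((n : ℝ) * (n - 1)) := by positivity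
  calc 4 / ((m : ℝ) * (m - 1) * ((n : ℝ) * (n - 1))) * ∑ X, f X ^ 2
      = 2 / ((n : ℝ) * (n - 1)) * (2 / ((m : ℝ) * (m - 1)) * ∑ X, f X ^ 2) := by
        field_simp; ring
    _ ≤ 2 / ((n : ℝ) * (n - 1))
          * ((1 / 2 : ℝ) * ∑ X, ∑ Y, rowPairChain r c X Y * (f X - f Y) ^ 2) :=
        mul_le_mul_of_nonneg_left hA hw
    _ ≤ _ := hB

/-- Mixing of the lazy `2 x 2` heat-bath chain under the three-row hypothesis. -/
theorem block_mixing_at (hyp : TripleHypAt r c) (hm : 2 ≤ m) (hn : 2 ≤ n)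
    (t : ℕ) (X : Omega r c) :
    (∑ Y, |(((1 / 2 : ℝ) • (1 + blockChain r c)) ^ t) X Y
        - 1 / (Fintype.card (Omega r c) : ℝ)|) ^ 2
      ≤ (Fintype.card (Omega r c) : ℝ)
        * (1 - 2 / ((m : ℝ) * (m - 1) * ((n : ℝ) * (n - 1)))) ^ t := by
  have h1 : (2 : ℝ) ≤ m := by exact_mod_cast hm
  have h1' : (2 : ℝ) ≤ n := by exact_mod_cast hn
  have hpm : (0 : ℝ) < (m : ℝ) * (m - 1) := by nlinarith
  have hpn : (0 : ℝ) < (n : ℝ) * (n - 1) := by nlinarith
  have hpos : (0 : ℝ) < (m : ℝ) * (m - 1) * ((n : ℝ) * (n - 1)) := mul_pos hpm hpn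
  have hK := blockChain_eq r c
  have hsymm : ∀ X Y, blockChain r c X Y = blockChain r c Y X := by
    intro X Y; rw [hK]
    exact mixK_symm (fun q : (Fin m × Fin m) × (Fin n × Fin n) =>
        BlockRel (r := r) (c := c) q.1.1 q.1.2 q.2.1 q.2.2)
      (fun q => q.1.1 ≠ q.1.2 ∧ q.2.1 ≠ q.2.2)
      (fun q => Rows.blockRel_equiv q.1.1 q.1.2 q.2.1 q.2.2) _ X Y
  have hnn : ∀ X Y, 0 ≤ blockChain r c X Y := by
    intro X Y; rw [hK]
    exact mixK_nonneg (fun q : (Fin m × Fin m) × (Fin n × Fin n) =>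
        BlockRel (r := r) (c := c) q.1.1 q.1.2 q.2.1 q.2.2)
      (fun q => q.1.1 ≠ q.1.2 ∧ q.2.1 ≠ q.2.2) _ (by positivity) X Y
  have hrow : ∀ X, ∑ Y, blockChain r c X Y = 1 := by
    intro X; rw [hK]
    exact mixK_row (fun q : (Fin m × Fin m) × (Fin n × Fin n) =>
        BlockRel (r := r) (c := c) q.1.1 q.1.2 q.2.1 q.2.2)
      (fun q => q.1.1 ≠ q.1.2 ∧ q.2.1 ≠ q.2.2)
      (fun q => Rows.blockRel_equiv q.1.1 q.1.2 q.2.1 q.2.2) _ (block_weight hm hn) X
  have hpm2 : (2 : ℝ) ≤ (m : ℝ) * (m - 1) := by nlinarith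
  have hpn2 : (2 : ℝ) ≤ (n : ℝ) * (n - 1) := by nlinarith
  have hγ : 4 / ((m : ℝ) * (m - 1) * ((n : ℝ) * (n - 1))) ≤ 2 := by
    rw [div_le_iff₀ hpos]
    nlinarith [mul_nonneg (sub_nonneg.2 hpm2) (sub_nonneg.2 hpn2)]
  have key := Vale.Agent.H12.MixCore.l1_bound (blockChain r c) hsymm hnn hrow
    (4 / ((m : ℝ) * (m - 1) * ((n : ℝ) * (n - 1)))) hγ
    (fun f hf => block_poincare_at hyp hm hn f hf) t X
  have e : 1 - 4 / ((m : ℝ) * (m - 1) * ((n : ℝ) * (n - 1))) / 2
      = 1 - 2 / ((m : ℝ) * (m - 1) * ((n : ℝ) * (n - 1))) := by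
    field_simp; ring
  rw [e] at key
  exact key

/-- Mixing time of the lazy row-pair heat-bath chain under the three-row hypothesis. -/
theorem rowPair_mixing_time_at (hyp : TripleHypAt r c) (hm : 2 ≤ m)
    (ε : ℝ) (hε : 0 < ε) (t : ℕ)
    (ht : (m : ℝ) * (m - 1) * ((m : ℝ) * ∑ j, Real.log ((c j : ℝ) + 1)
      + 2 * Real.log (1 / ε)) ≤ t) (X : Omega r c) :
    (1 / 2 : ℝ) * ∑ Y, |(((1 / 2 : ℝ) • (1 + rowPairChain r c)) ^ t) X Y
        - 1 / (Fintype.card (Omega r c) : ℝ)| ≤ ε := by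
  have h1 : (2 : ℝ) ≤ m := by exact_mod_cast hm
  have hpos : (0 : ℝ) < (m : ℝ) * (m - 1) := by nlinarith
  have hp2 : (2 : ℝ) ≤ (m : ℝ) * (m - 1) := by nlinarith
  have hcard : (1 : ℝ) ≤ (Fintype.card (Omega r c) : ℝ) := by
    have : 0 < Fintype.card (Omega r c) := Fintype.card_pos_iff.mpr ⟨X⟩
    exact_mod_cast this
  have hS : 0 ≤ ∑ Y, |(((1 / 2 : ℝ) • (1 + rowPairChain r c)) ^ t) X Y
        - 1 / (Fintype.card (Omega r c) : ℝ)| :=
    Finset.sum_nonneg (fun Y _ => abs_nonneg _)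
  have key := eps_of_decay _ (Fintype.card (Omega r c) : ℝ) (1 / ((m : ℝ) * (m - 1)))
    ((m : ℝ) * ∑ j, Real.log ((c j : ℝ) + 1)) ε t hS hcard (by positivity)
    (by rw [div_le_iff₀ hpos]; linarith) (rowPair_mixing_at hyp hm t X) hε
    (log_card_Omega_le r c X)
    (by
      have e : ((m : ℝ) * ∑ j, Real.log ((c j : ℝ) + 1) + 2 * Real.log (1 / ε))
          / (1 / ((m : ℝ) * (m - 1)))
          = (m : ℝ) * (m - 1) * ((m : ℝ) * ∑ j, Real.log ((c j : ℝ) + 1)
            + 2 * Real.log (1 / ε)) := by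
        field_simp
      rw [e]; exact ht)
  linarith

/-- Mixing time of the lazy `2 x 2` heat-bath chain under the three-row hypothesis. -/
theorem block_mixing_time_at (hyp : TripleHypAt r c) (hm : 2 ≤ m) (hn : 2 ≤ n)
    (ε : ℝ) (hε : 0 < ε) (t : ℕ)
    (ht : (m : ℝ) * (m - 1) * ((n : ℝ) * (n - 1)) / 2
      * ((m : ℝ) * ∑ j, Real.log ((c j : ℝ) + 1) + 2 * Real.log (1 / ε)) ≤ t)
    (X : Omega r c) :
    (1 / 2 : ℝ) * ∑ Y, |(((1 / 2 : ℝ) • (1 + blockChain r c)) ^ t) X Y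
        - 1 / (Fintype.card (Omega r c) : ℝ)| ≤ ε := by
  have h1 : (2 : ℝ) ≤ m := by exact_mod_cast hm
  have h1' : (2 : ℝ) ≤ n := by exact_mod_cast hn
  have hpm : (0 : ℝ) < (m : ℝ) * (m - 1) := by nlinarith
  have hpn : (0 : ℝ) < (n : ℝ) * (n - 1) := by nlinarith
  have hpm2 : (2 : ℝ) ≤ (m : ℝ) * (m - 1) := by nlinarith
  have hpn2 : (2 : ℝ) ≤ (n : ℝ) * (n - 1) := by nlinarith
  have hpos : (0 : ℝ) < (m : ℝ) * (m - 1) * ((n : ℝ) * (n - 1)) := mul_pos hpm hpn
  have hcard : (1 : ℝ) ≤ (Fintype.card (Omega r c) : ℝ) := by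
    have : 0 < Fintype.card (Omega r c) := Fintype.card_pos_iff.mpr ⟨X⟩
    exact_mod_cast this
  have hS : 0 ≤ ∑ Y, |(((1 / 2 : ℝ) • (1 + blockChain r c)) ^ t) X Y
        - 1 / (Fintype.card (Omega r c) : ℝ)| :=
    Finset.sum_nonneg (fun Y _ => abs_nonneg _)
  have key := eps_of_decay _ (Fintype.card (Omega r c) : ℝ)
    (2 / ((m : ℝ) * (m - 1) * ((n : ℝ) * (n - 1))))
    ((m : ℝ) * ∑ j, Real.log ((c j : ℝ) + 1)) ε t hS hcard (by positivity)
    (by
      rw [div_le_iff₀ hpos]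
      nlinarith [mul_nonneg (sub_nonneg.2 hpm2) (sub_nonneg.2 hpn2)])
    (block_mixing_at hyp hm hn t X) hε (log_card_Omega_le r c X)
    (by
      have e : ((m : ℝ) * ∑ j, Real.log ((c j : ℝ) + 1) + 2 * Real.log (1 / ε))
          / (2 / ((m : ℝ) * (m - 1) * ((n : ℝ) * (n - 1))))
          = (m : ℝ) * (m - 1) * ((n : ℝ) * (n - 1)) / 2
            * ((m : ℝ) * ∑ j, Real.log ((c j : ℝ) + 1) + 2 * Real.log (1 / ε)) := by
        field_simp
      rw [e]; exact ht)
  linarith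

section Transfer

open Vale.Agent.H91.CT Vale.Agent.H91.CT.TransferAux

/-- The three-row inequality summed over one class of the row triple. -/
theorem class_ineq_at (i j k : Fin m)
    (h : ∀ c' : Fin n → ℕ, ThreeRowGapAt (r3 r i j k) c') (hij : i ≠ j) (hjk : j ≠ k) (hik : i ≠ k)
    (f : Omega r c → ℝ) (X0 : Omega r c) :
    ∑ X ∈ univ.filter (fun X => TriRel i j k X0 X), (f X - avgRel (TriRel i j k) f X) ^ 2
      ≤ ∑ X ∈ univ.filter (fun X => TriRel i j k X0 X),
          ((f X - avgRel (RowRel i j) f X) ^ 2 + (f X - avgRel (RowRel j k) f X) ^ 2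
            + (f X - avgRel (RowRel k i) f X) ^ 2) := by
  have hφ := put_inj X0 i j k hij hjk hik
  have hS := mem_class_iff X0 i j k hij hjk hik
  rw [sum_class_embed (put X0 i j k hij hjk hik) hφ _ hS,
    sum_class_embed (put X0 i j k hij hjk hik) hφ _ hS]
  have eT : ∀ Z, avgRel (TriRel i j k) f (put X0 i j k hij hjk hik Z)
      = (∑ W, f (put X0 i j k hij hjk hik W))
        / (Fintype.card (Omega (r3 r i j k) (c3 X0 i j k)) : ℝ) := by
    intro Z
    rw [avgRel_embed (put X0 i j k hij hjk hik) hφ (TriRel i j k) (fun _ _ => True)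
      (fun Z Z' => ⟨fun _ => (Vale.Agent.H91.CT.triRel_equiv i j k).trans
        ((Vale.Agent.H91.CT.triRel_equiv i j k).symm (tri_put X0 i j k hij hjk hik Z))
        (tri_put X0 i j k hij hjk hik Z'), fun _ => trivial⟩)
      (exists_of_rel X0 i j k hij hjk hik _ (fun _ _ hh => hh)) f Z, avgRel_true]
  have e2 : ∀ Z, avgRel (RowRel i j) f (put X0 i j k hij hjk hik Z)
      = avgRel (fun X Y : Omega (r3 r i j k) (c3 X0 i j k) => X.1 2 = Y.1 2)
          (fun W => f (put X0 i j k hij hjk hik W)) Z := fun Z =>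
    avgRel_embed (put X0 i j k hij hjk hik) hφ (RowRel i j) _
      (rel_ij X0 i j k hij hjk hik)
      (exists_of_rel X0 i j k hij hjk hik _ (rowRel_le_triRel_ij i j k)) f Z
  have e0 : ∀ Z, avgRel (RowRel j k) f (put X0 i j k hij hjk hik Z)
      = avgRel (fun X Y : Omega (r3 r i j k) (c3 X0 i j k) => X.1 0 = Y.1 0)
          (fun W => f (put X0 i j k hij hjk hik W)) Z := fun Z =>
    avgRel_embed (put X0 i j k hij hjk hik) hφ (RowRel j k) _
      (rel_jk X0 i j k hij hjk hik)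
      (exists_of_rel X0 i j k hij hjk hik _ (rowRel_le_triRel_jk i j k)) f Z
  have e1 : ∀ Z, avgRel (RowRel k i) f (put X0 i j k hij hjk hik Z)
      = avgRel (fun X Y : Omega (r3 r i j k) (c3 X0 i j k) => X.1 1 = Y.1 1)
          (fun W => f (put X0 i j k hij hjk hik W)) Z := fun Z =>
    avgRel_embed (put X0 i j k hij hjk hik) hφ (RowRel k i) _
      (rel_ki X0 i j k hij hjk hik)
      (exists_of_rel X0 i j k hij hjk hik _ (rowRel_le_triRel_ki i j k)) f Z
  have hg := h (c3 X0 i j k) (fun W => f (put X0 i j k hij hjk hik W))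
  rw [Fin.sum_univ_three] at hg
  simp only [eT, e0, e1, e2]
  rw [Finset.sum_add_distrib, Finset.sum_add_distrib]
  linarith [hg]

/-- Transfer: the three-row gap on the three-row classes with row sums `r i, r j, r k` (all
column sums) gives the fibre form inside the class `Omega r c`. -/
theorem tripleHypAt_of_rows
    (h : ∀ i j k : Fin m, i ≠ j → j ≠ k → i ≠ k →
      ∀ c' : Fin n → ℕ, ThreeRowGapAt (r3 r i j k) c') : TripleHypAt r c := by
  intro i j k hij hjk hik f
  have key := sum_le_of_class (TriRel (r := r) (c := c) i j k)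
    (Vale.Agent.H91.CT.triRel_equiv i j k)
    (fun X => (f X - avgRel (TriRel i j k) f X) ^ 2)
    (fun X => (f X - avgRel (RowRel i j) f X) ^ 2 + (f X - avgRel (RowRel j k) f X) ^ 2
            + (f X - avgRel (RowRel k i) f X) ^ 2)
    (fun X0 => class_ineq_at i j k (h i j k hij hjk hik) hij hjk hik f X0)
  rw [Finset.sum_add_distrib, Finset.sum_add_distrib] at key
  exact key

/-- Row sums in `S`: the three-row gap on three-row classes with row sums in `S` suffices. -/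
theorem tripleHypAt_of_on {S : Set ℕ} (h : ThreeRowGapOn S) (hr : ∀ i, r i ∈ S) :
    TripleHypAt r c := by
  refine tripleHypAt_of_rows (fun i j k _ _ _ c' => h n (r3 r i j k) c' ?_)
  intro q
  fin_cases q
  · exact hr i
  · exact hr j
  · exact hr k

theorem r3_const (ρ : ℕ) (i j k : Fin m) :
    r3 (fun _ : Fin m => ρ) i j k = fun _ : Fin 3 => ρ := by
  funext q
  fin_cases q <;> rfl

/-- Equal row sums: the three-row gap on three-row classes with three equal row sums suffices. -/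
theorem tripleHypAt_of_eq (h : ThreeRowGapEq) (ρ : ℕ) (c : Fin n → ℕ) :
    TripleHypAt (fun _ : Fin m => ρ) c := by
  refine tripleHypAt_of_rows (fun i j k _ _ _ c' => ?_)
  rw [r3_const]
  exact h n ρ c'

end Transfer

/-- `ThreeRowGapEq` is `ThreeRowGapOn` for singletons. -/
theorem threeRowGapEq_iff_on : ThreeRowGapEq ↔ ∀ ρ : ℕ, ThreeRowGapOn {ρ} := by
  constructor
  · intro h ρ n r c hr
    have e : r = fun _ : Fin 3 => ρ := funext (fun k => hr k)
    rw [e]
    exact h n ρ c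
  · intro h n ρ c
    exact h ρ n (fun _ => ρ) c (fun _ => rfl)

/-- The full hypothesis implies every restricted one. -/
theorem threeRowGapOn_of_threeRowGap (h : ThreeRowGap) (S : Set ℕ) : ThreeRowGapOn S :=
  fun n r c _ => h n r c

theorem threeRowGapEq_of_threeRowGap (h : ThreeRowGap) : ThreeRowGapEq :=
  fun n ρ c => h n (fun _ => ρ) c

/-! ### The relativised statements -/

/-- Hand-in C relativised: row-pair chain, row sums in `S`. -/
theorem rowPair_mixing_time_on {S : Set ℕ} (hyp : ThreeRowGapOn S) (hm : 2 ≤ m)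
    (r : Fin m → ℕ) (hr : ∀ i, r i ∈ S) (c : Fin n → ℕ) (ε : ℝ) (hε : 0 < ε) (t : ℕ)
    (ht : (m : ℝ) * (m - 1) * ((m : ℝ) * ∑ j, Real.log ((c j : ℝ) + 1)
      + 2 * Real.log (1 / ε)) ≤ t) (X : Omega r c) :
    (1 / 2 : ℝ) * ∑ Y, |(((1 / 2 : ℝ) • (1 + rowPairChain r c)) ^ t) X Y
        - 1 / (Fintype.card (Omega r c) : ℝ)| ≤ ε :=
  rowPair_mixing_time_at (tripleHypAt_of_on hyp hr) hm ε hε t ht X

/-- Hand-in A relativised: `2 x 2` heat-bath chain, row sums in `S`. -/
theorem block_mixing_time_on {S : Set ℕ} (hyp : ThreeRowGapOn S) (hm : 2 ≤ m) (hn : 2 ≤ n)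
    (r : Fin m → ℕ) (hr : ∀ i, r i ∈ S) (c : Fin n → ℕ) (ε : ℝ) (hε : 0 < ε) (t : ℕ)
    (ht : (m : ℝ) * (m - 1) * ((n : ℝ) * (n - 1)) / 2
      * ((m : ℝ) * ∑ j, Real.log ((c j : ℝ) + 1) + 2 * Real.log (1 / ε)) ≤ t)
    (X : Omega r c) :
    (1 / 2 : ℝ) * ∑ Y, |(((1 / 2 : ℝ) • (1 + blockChain r c)) ^ t) X Y
        - 1 / (Fintype.card (Omega r c) : ℝ)| ≤ ε :=
  block_mixing_time_at (tripleHypAt_of_on hyp hr) hm hn ε hε t ht X

/-- Hand-in C relativised to equal row sums: under the three-row gap for three equal row sums,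
the lazy row-pair chain mixes in the stated time on every class with all row sums equal. -/
theorem rowPair_mixing_time_eq (hyp : ThreeRowGapEq) (hm : 2 ≤ m)
    (ρ : ℕ) (c : Fin n → ℕ) (ε : ℝ) (hε : 0 < ε) (t : ℕ)
    (ht : (m : ℝ) * (m - 1) * ((m : ℝ) * ∑ j, Real.log ((c j : ℝ) + 1)
      + 2 * Real.log (1 / ε)) ≤ t) (X : Omega (fun _ : Fin m => ρ) c) :
    (1 / 2 : ℝ) * ∑ Y, |(((1 / 2 : ℝ) • (1 + rowPairChain (fun _ : Fin m => ρ) c)) ^ t) X Y
        - 1 / (Fintype.card (Omega (fun _ : Fin m => ρ) c) : ℝ)| ≤ ε :=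
  rowPair_mixing_time_at (tripleHypAt_of_eq hyp ρ c) hm ε hε t ht X

/-- Hand-in A relativised to equal row sums: under the three-row gap for three equal row sums,
the lazy `2 x 2` heat-bath chain mixes in the stated time on every class with all row sums
equal. -/
theorem block_mixing_time_eq (hyp : ThreeRowGapEq) (hm : 2 ≤ m) (hn : 2 ≤ n)
    (ρ : ℕ) (c : Fin n → ℕ) (ε : ℝ) (hε : 0 < ε) (t : ℕ)
    (ht : (m : ℝ) * (m - 1) * ((n : ℝ) * (n - 1)) / 2
      * ((m : ℝ) * ∑ j, Real.log ((c j : ℝ) + 1) + 2 * Real.log (1 / ε)) ≤ t)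
    (X : Omega (fun _ : Fin m => ρ) c) :
    (1 / 2 : ℝ) * ∑ Y, |(((1 / 2 : ℝ) • (1 + blockChain (fun _ : Fin m => ρ) c)) ^ t) X Y
        - 1 / (Fintype.card (Omega (fun _ : Fin m => ρ) c) : ℝ)| ≤ ε :=
  block_mixing_time_at (tripleHypAt_of_eq hyp ρ c) hm hn ε hε t ht X

end Vale.Agent.H25.CT
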