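import Vale.Agent.H25.CT.EqRows
import Vale.Agent.H23.CT.TriDual

/-!
# P328: the exchangeable form (EX) of the three-row gap for three equal row sums

For three equal row sums the three rows of a uniform table are exchangeable, and the three-row
gap on the class `Omega (ρ, ρ, ρ) c` follows from a statement about ONE function `φ` of a row:

`ExHyp`:  `∑ X, (φ (X 0) - mean)^2 ≤ ∑ X, (φ (X 0) - φ (X 1))^2`
(sums over the class; i.e. `Var φ(X_1) ≤ E (φ(X_1) - φ(X_2))^2`).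

`threeRowGapEq_of_exHyp : ExHyp → ThreeRowGapEq`.  Proof: by `gapDefect_nonneg_iff_dual` it is
enough to show `∑ X, (∑ k, ψ k (X k))^2 ≤ 2 ∑ k, ∑ X, (ψ k (X k))^2` for centred row functions
`ψ k`; the sums are invariant under permutations of the rows (`ex_sum_abd`), so the defect is the
sum over the class of its symmetrisation over the six permutations, and that is, pointwise,
`6 ((s₀ - s₁)² + (s₀ - s₂)² + (s₁ - s₂)² - s₀² - s₁² - s₂²)` for `s = (ψ 0 + ψ 1 + ψ 2) / 3`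
plus a sum of nine squares (`ex_alg`); the sum of the first part over the class is
`18 (∑ (s (X 0) - s (X 1))² - ∑ s (X 0)²) ≥ 0` by the hypothesis applied to `s`.
-/

namespace Vale.Agent.H25.CT

open Finset Vale.Agent.H90 Vale.Agent.H88.CT Vale.Agent.H23.CT

/-- The exchangeable form (EX): on every class of `3 x n` tables with three equal row sums and
for every real function `φ` of a row, the sum over the class of the squared deviations of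
`φ (first row)` from its mean is at most the sum over the class of `(φ (first row) -
φ (second row))^2`. -/
def ExHyp : Prop :=
  ∀ (n ρ : ℕ) (c : Fin n → ℕ) (φ : (Fin n → ℕ) → ℝ),
    ∑ X : Omega (fun _ : Fin 3 => ρ) c,
        (φ (X.1 0) - (∑ Y : Omega (fun _ : Fin 3 => ρ) c, φ (Y.1 0))
          / (Fintype.card (Omega (fun _ : Fin 3 => ρ) c) : ℝ)) ^ 2
      ≤ ∑ X : Omega (fun _ : Fin 3 => ρ) c, (φ (X.1 0) - φ (X.1 1)) ^ 2

section ExAux

variable {n : ℕ} {ρ : ℕ} {c : Fin n → ℕ}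

/-- Permuting the three rows of a table with three equal row sums. -/
def exPerm (σ : Equiv.Perm (Fin 3)) :
    Omega (fun _ : Fin 3 => ρ) c ≃ Omega (fun _ : Fin 3 => ρ) c where
  toFun X := ⟨fun k => X.1 (σ k), fun i => X.2.1 (σ i), fun j => by
    rw [Equiv.sum_comp σ (fun i => X.1 i j)]
    exact X.2.2 j⟩
  invFun X := ⟨fun k => X.1 (σ.symm k), fun i => X.2.1 (σ.symm i), fun j => by
    rw [Equiv.sum_comp σ.symm (fun i => X.1 i j)]
    exact X.2.2 j⟩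
  left_inv X := by
    apply Subtype.ext
    funext k
    simp
  right_inv X := by
    apply Subtype.ext
    funext k
    simp

theorem ex_sum_perm (σ : Equiv.Perm (Fin 3)) (G : (Fin 3 → Fin n → ℕ) → ℝ) :
    ∑ X : Omega (fun _ : Fin 3 => ρ) c, G (fun k => X.1 (σ k))
      = ∑ X : Omega (fun _ : Fin 3 => ρ) c, G X.1 :=
  Equiv.sum_comp (exPerm σ) (fun X => G X.1)

theorem ex_perm3 (a b d : Fin 3) (hab : a ≠ b) (had : a ≠ d) (hbd : b ≠ d) :
    ∃ σ : Equiv.Perm (Fin 3), σ 0 = a ∧ σ 1 = b ∧ σ 2 = d := by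
  have hinj : Function.Injective (![a, b, d] : Fin 3 → Fin 3) := by
    intro i j h
    fin_cases i <;> fin_cases j <;> simp_all
  refine ⟨Equiv.ofBijective _ (Finite.injective_iff_bijective.1 hinj), ?_, ?_, ?_⟩ <;> rfl

/-- Sums over a class with three equal row sums do not depend on the order of the rows. -/
theorem ex_sum_abd (a b d : Fin 3) (hab : a ≠ b) (had : a ≠ d) (hbd : b ≠ d)
    (G : (Fin n → ℕ) → (Fin n → ℕ) → (Fin n → ℕ) → ℝ) :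
    ∑ X : Omega (fun _ : Fin 3 => ρ) c, G (X.1 a) (X.1 b) (X.1 d)
      = ∑ X : Omega (fun _ : Fin 3 => ρ) c, G (X.1 0) (X.1 1) (X.1 2) := by
  obtain ⟨σ, h0, h1, h2⟩ := ex_perm3 a b d hab had hbd
  have h := ex_sum_perm (ρ := ρ) (c := c) σ (fun Y => G (Y 0) (Y 1) (Y 2))
  simp only [h0, h1, h2] at h
  exact h

/-- The symmetrisation over the six orders of the rows. -/
theorem ex_sum_sym (G : (Fin n → ℕ) → (Fin n → ℕ) → (Fin n → ℕ) → ℝ) :
    6 * ∑ X : Omega (fun _ : Fin 3 => ρ) c, G (X.1 0) (X.1 1) (X.1 2)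
      = ∑ X : Omega (fun _ : Fin 3 => ρ) c,
          (G (X.1 0) (X.1 1) (X.1 2) + G (X.1 0) (X.1 2) (X.1 1) + G (X.1 1) (X.1 0) (X.1 2)
            + G (X.1 1) (X.1 2) (X.1 0) + G (X.1 2) (X.1 0) (X.1 1)
            + G (X.1 2) (X.1 1) (X.1 0)) := by
  simp only [Finset.sum_add_distrib]
  rw [ex_sum_abd 0 2 1 (by decide) (by decide) (by decide) G,
    ex_sum_abd 1 0 2 (by decide) (by decide) (by decide) G,
    ex_sum_abd 1 2 0 (by decide) (by decide) (by decide) G,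
    ex_sum_abd 2 0 1 (by decide) (by decide) (by decide) G,
    ex_sum_abd 2 1 0 (by decide) (by decide) (by decide) G]
  ring

/-- The pointwise inequality behind the reduction: `p k i` stands for `ψ k (row i)`. -/
theorem ex_alg (p00 p01 p02 p10 p11 p12 p20 p21 p22 : ℝ) :
    6 * (((p00 + p10 + p20) / 3 - (p01 + p11 + p21) / 3) ^ 2
          + ((p00 + p10 + p20) / 3 - (p02 + p12 + p22) / 3) ^ 2
          + ((p01 + p11 + p21) / 3 - (p02 + p12 + p22) / 3) ^ 2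
          - (((p00 + p10 + p20) / 3) ^ 2 + ((p01 + p11 + p21) / 3) ^ 2
            + ((p02 + p12 + p22) / 3) ^ 2))
      ≤ (p00 ^ 2 + p11 ^ 2 + p22 ^ 2 - 2 * p00 * p11 - 2 * p00 * p22 - 2 * p11 * p22)
        + (p00 ^ 2 + p12 ^ 2 + p21 ^ 2 - 2 * p00 * p12 - 2 * p00 * p21 - 2 * p12 * p21)
        + (p01 ^ 2 + p10 ^ 2 + p22 ^ 2 - 2 * p01 * p10 - 2 * p01 * p22 - 2 * p10 * p22)
        + (p01 ^ 2 + p12 ^ 2 + p20 ^ 2 - 2 * p01 * p12 - 2 * p01 * p20 - 2 * p12 * p20)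
        + (p02 ^ 2 + p10 ^ 2 + p21 ^ 2 - 2 * p02 * p10 - 2 * p02 * p21 - 2 * p10 * p21)
        + (p02 ^ 2 + p11 ^ 2 + p20 ^ 2 - 2 * p02 * p11 - 2 * p02 * p20 - 2 * p11 * p20) := by
  have key : (p00 ^ 2 + p11 ^ 2 + p22 ^ 2 - 2 * p00 * p11 - 2 * p00 * p22 - 2 * p11 * p22)
        + (p00 ^ 2 + p12 ^ 2 + p21 ^ 2 - 2 * p00 * p12 - 2 * p00 * p21 - 2 * p12 * p21)
        + (p01 ^ 2 + p10 ^ 2 + p22 ^ 2 - 2 * p01 * p10 - 2 * p01 * p22 - 2 * p10 * p22)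
        + (p01 ^ 2 + p12 ^ 2 + p20 ^ 2 - 2 * p01 * p12 - 2 * p01 * p20 - 2 * p12 * p20)
        + (p02 ^ 2 + p10 ^ 2 + p21 ^ 2 - 2 * p02 * p10 - 2 * p02 * p21 - 2 * p10 * p21)
        + (p02 ^ 2 + p11 ^ 2 + p20 ^ 2 - 2 * p02 * p11 - 2 * p02 * p20 - 2 * p11 * p20)
      = 6 * (((p00 + p10 + p20) / 3 - (p01 + p11 + p21) / 3) ^ 2
          + ((p00 + p10 + p20) / 3 - (p02 + p12 + p22) / 3) ^ 2
          + ((p01 + p11 + p21) / 3 - (p02 + p12 + p22) / 3) ^ 2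
          - (((p00 + p10 + p20) / 3) ^ 2 + ((p01 + p11 + p21) / 3) ^ 2
            + ((p02 + p12 + p22) / 3) ^ 2))
        + (((p00 - (p00 + p10 + p20) / 3) + (p01 - (p01 + p11 + p21) / 3)) ^ 2
          + ((p00 - (p00 + p10 + p20) / 3) + (p02 - (p02 + p12 + p22) / 3)) ^ 2
          + ((p01 - (p01 + p11 + p21) / 3) + (p02 - (p02 + p12 + p22) / 3)) ^ 2
          + ((p10 - (p00 + p10 + p20) / 3) + (p11 - (p01 + p11 + p21) / 3)) ^ 2
          + ((p10 - (p00 + p10 + p20) / 3) + (p12 - (p02 + p12 + p22) / 3)) ^ 2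
          + ((p11 - (p01 + p11 + p21) / 3) + (p12 - (p02 + p12 + p22) / 3)) ^ 2
          + ((p20 - (p00 + p10 + p20) / 3) + (p21 - (p01 + p11 + p21) / 3)) ^ 2
          + ((p20 - (p00 + p10 + p20) / 3) + (p22 - (p02 + p12 + p22) / 3)) ^ 2
          + ((p21 - (p01 + p11 + p21) / 3) + (p22 - (p02 + p12 + p22) / 3)) ^ 2) := by
    ring
  rw [key]
  have h1 := sq_nonneg ((p00 - (p00 + p10 + p20) / 3) + (p01 - (p01 + p11 + p21) / 3))
  have h2 := sq_nonneg ((p00 - (p00 + p10 + p20) / 3) + (p02 - (p02 + p12 + p22) / 3))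
  have h3 := sq_nonneg ((p01 - (p01 + p11 + p21) / 3) + (p02 - (p02 + p12 + p22) / 3))
  have h4 := sq_nonneg ((p10 - (p00 + p10 + p20) / 3) + (p11 - (p01 + p11 + p21) / 3))
  have h5 := sq_nonneg ((p10 - (p00 + p10 + p20) / 3) + (p12 - (p02 + p12 + p22) / 3))
  have h6 := sq_nonneg ((p11 - (p01 + p11 + p21) / 3) + (p12 - (p02 + p12 + p22) / 3))
  have h7 := sq_nonneg ((p20 - (p00 + p10 + p20) / 3) + (p21 - (p01 + p11 + p21) / 3))
  have h8 := sq_nonneg ((p20 - (p00 + p10 + p20) / 3) + (p22 - (p02 + p12 + p22) / 3))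
  have h9 := sq_nonneg ((p21 - (p01 + p11 + p21) / 3) + (p22 - (p02 + p12 + p22) / 3))
  linarith

/-- The sum of the deviations from the mean vanishes. -/
theorem ex_centre {α : Type*} [Fintype α] (g : α → ℝ) :
    ∑ x, (g x - (∑ y, g y) / (Fintype.card α : ℝ)) = 0 := by
  rw [Finset.sum_sub_distrib, Finset.sum_const, Finset.card_univ, nsmul_eq_mul]
  by_cases h : (Fintype.card α : ℝ) = 0
  · have h0 : Fintype.card α = 0 := by exact_mod_cast h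
    have : IsEmpty α := Fintype.card_eq_zero_iff.1 h0
    simp
  · field_simp
    ring

/-- The reduction for centred row functions. -/
theorem ex_centred (hyp : ExHyp) (ψ : Fin 3 → (Fin n → ℕ) → ℝ)
    (hc : ∀ k, ∑ X : Omega (fun _ : Fin 3 => ρ) c, ψ k (X.1 0) = 0) :
    ∑ X : Omega (fun _ : Fin 3 => ρ) c, (ψ 0 (X.1 0) + ψ 1 (X.1 1) + ψ 2 (X.1 2)) ^ 2
      ≤ 2 * (∑ X : Omega (fun _ : Fin 3 => ρ) c, ψ 0 (X.1 0) ^ 2
        + ∑ X : Omega (fun _ : Fin 3 => ρ) c, ψ 1 (X.1 1) ^ 2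
        + ∑ X : Omega (fun _ : Fin 3 => ρ) c, ψ 2 (X.1 2) ^ 2) := by
  obtain ⟨s, hs⟩ : ∃ s : (Fin n → ℕ) → ℝ, s = fun y => (ψ 0 y + ψ 1 y + ψ 2 y) / 3 := ⟨_, rfl⟩
  -- the hypothesis at `s`, which is centred
  have hs0 : ∑ X : Omega (fun _ : Fin 3 => ρ) c, s (X.1 0) = 0 := by
    rw [hs]
    simp only
    rw [← Finset.sum_div, Finset.sum_add_distrib, Finset.sum_add_distrib, hc 0, hc 1, hc 2]
    norm_num
  have hE := hyp n ρ c s
  rw [hs0, zero_div] at hE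
  simp only [sub_zero] at hE
  -- row symmetry for `s`
  have e02 : ∑ X : Omega (fun _ : Fin 3 => ρ) c, (s (X.1 0) - s (X.1 2)) ^ 2
      = ∑ X : Omega (fun _ : Fin 3 => ρ) c, (s (X.1 0) - s (X.1 1)) ^ 2 :=
    ex_sum_abd 0 2 1 (by decide) (by decide) (by decide) (fun y y' _ => (s y - s y') ^ 2)
  have e12 : ∑ X : Omega (fun _ : Fin 3 => ρ) c, (s (X.1 1) - s (X.1 2)) ^ 2
      = ∑ X : Omega (fun _ : Fin 3 => ρ) c, (s (X.1 0) - s (X.1 1)) ^ 2 :=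
    ex_sum_abd 1 2 0 (by decide) (by decide) (by decide) (fun y y' _ => (s y - s y') ^ 2)
  have d1 : ∑ X : Omega (fun _ : Fin 3 => ρ) c, s (X.1 1) ^ 2
      = ∑ X : Omega (fun _ : Fin 3 => ρ) c, s (X.1 0) ^ 2 :=
    ex_sum_abd 1 0 2 (by decide) (by decide) (by decide) (fun y _ _ => s y ^ 2)
  have d2 : ∑ X : Omega (fun _ : Fin 3 => ρ) c, s (X.1 2) ^ 2
      = ∑ X : Omega (fun _ : Fin 3 => ρ) c, s (X.1 0) ^ 2 :=
    ex_sum_abd 2 0 1 (by decide) (by decide) (by decide) (fun y _ _ => s y ^ 2)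
  -- symmetrise the defect
  have hsym := ex_sum_sym (ρ := ρ) (c := c)
    (fun y0 y1 y2 => ψ 0 y0 ^ 2 + ψ 1 y1 ^ 2 + ψ 2 y2 ^ 2 - 2 * ψ 0 y0 * ψ 1 y1
      - 2 * ψ 0 y0 * ψ 2 y2 - 2 * ψ 1 y1 * ψ 2 y2)
  simp only at hsym
  have hpt : ∑ X : Omega (fun _ : Fin 3 => ρ) c,
        6 * ((s (X.1 0) - s (X.1 1)) ^ 2 + (s (X.1 0) - s (X.1 2)) ^ 2
          + (s (X.1 1) - s (X.1 2)) ^ 2 - (s (X.1 0) ^ 2 + s (X.1 1) ^ 2 + s (X.1 2) ^ 2))
      ≤ 6 * ∑ X : Omega (fun _ : Fin 3 => ρ) c,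
          (ψ 0 (X.1 0) ^ 2 + ψ 1 (X.1 1) ^ 2 + ψ 2 (X.1 2) ^ 2 - 2 * ψ 0 (X.1 0) * ψ 1 (X.1 1)
            - 2 * ψ 0 (X.1 0) * ψ 2 (X.1 2) - 2 * ψ 1 (X.1 1) * ψ 2 (X.1 2)) := by
    rw [hsym]
    refine Finset.sum_le_sum (fun X _ => ?_)
    rw [hs]
    exact ex_alg (ψ 0 (X.1 0)) (ψ 0 (X.1 1)) (ψ 0 (X.1 2)) (ψ 1 (X.1 0)) (ψ 1 (X.1 1))
      (ψ 1 (X.1 2)) (ψ 2 (X.1 0)) (ψ 2 (X.1 1)) (ψ 2 (X.1 2))
  have hA : ∑ X : Omega (fun _ : Fin 3 => ρ) c,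
        6 * ((s (X.1 0) - s (X.1 1)) ^ 2 + (s (X.1 0) - s (X.1 2)) ^ 2
          + (s (X.1 1) - s (X.1 2)) ^ 2 - (s (X.1 0) ^ 2 + s (X.1 1) ^ 2 + s (X.1 2) ^ 2))
      = 18 * (∑ X : Omega (fun _ : Fin 3 => ρ) c, (s (X.1 0) - s (X.1 1)) ^ 2
          - ∑ X : Omega (fun _ : Fin 3 => ρ) c, s (X.1 0) ^ 2) := by
    rw [← Finset.mul_sum, Finset.sum_sub_distrib, Finset.sum_add_distrib, Finset.sum_add_distrib,
      Finset.sum_add_distrib, Finset.sum_add_distrib, e02, e12, d1, d2]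
    ring
  have hG : ∑ X : Omega (fun _ : Fin 3 => ρ) c,
          (ψ 0 (X.1 0) ^ 2 + ψ 1 (X.1 1) ^ 2 + ψ 2 (X.1 2) ^ 2 - 2 * ψ 0 (X.1 0) * ψ 1 (X.1 1)
            - 2 * ψ 0 (X.1 0) * ψ 2 (X.1 2) - 2 * ψ 1 (X.1 1) * ψ 2 (X.1 2))
      = 2 * (∑ X : Omega (fun _ : Fin 3 => ρ) c, ψ 0 (X.1 0) ^ 2
          + ∑ X : Omega (fun _ : Fin 3 => ρ) c, ψ 1 (X.1 1) ^ 2
          + ∑ X : Omega (fun _ : Fin 3 => ρ) c, ψ 2 (X.1 2) ^ 2)
        - ∑ X : Omega (fun _ : Fin 3 => ρ) c, (ψ 0 (X.1 0) + ψ 1 (X.1 1) + ψ 2 (X.1 2)) ^ 2 := by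
    rw [← Finset.sum_add_distrib, ← Finset.sum_add_distrib, Finset.mul_sum,
      ← Finset.sum_sub_distrib]
    refine Finset.sum_congr rfl (fun X _ => ?_)
    ring
  rw [hA] at hpt
  rw [hG] at hpt
  linarith

end ExAux

/-- The exchangeable form implies the three-row gap on all classes with three equal row sums. -/
theorem threeRowGapEq_of_exHyp (hyp : ExHyp) : ThreeRowGapEq := by
  intro n ρ c
  have hd : ∀ φ : Fin 3 → (Fin n → ℕ) → ℝ, 0 ≤ dualDefect (fun _ : Fin 3 => ρ) c φ := by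
    intro φ
    obtain ⟨μ, hμ⟩ : ∃ μ : Fin 3 → ℝ, μ = fun k =>
        (∑ Y : Omega (fun _ : Fin 3 => ρ) c, φ k (Y.1 k))
          / (Fintype.card (Omega (fun _ : Fin 3 => ρ) c) : ℝ) := ⟨_, rfl⟩
    obtain ⟨ψ, hψ⟩ : ∃ ψ : Fin 3 → (Fin n → ℕ) → ℝ, ψ = fun k y => φ k y - μ k := ⟨_, rfl⟩
    -- the `ψ k` are centred
    have hck : ∀ k, ∑ X : Omega (fun _ : Fin 3 => ρ) c, ψ k (X.1 k) = 0 := by
      intro k
      rw [hψ, hμ]
      exact ex_centre (fun X : Omega (fun _ : Fin 3 => ρ) c => φ k (X.1 k))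
    have hc : ∀ k, ∑ X : Omega (fun _ : Fin 3 => ρ) c, ψ k (X.1 0) = 0 := by
      intro k
      rw [← hck k]
      fin_cases k
      · rfl
      · exact (ex_sum_abd 1 0 2 (by decide) (by decide) (by decide)
          (fun y _ _ => ψ 1 y)).symm
      · exact (ex_sum_abd 2 0 1 (by decide) (by decide) (by decide)
          (fun y _ _ => ψ 2 y)).symm
    have key := ex_centred hyp ψ hc
    -- rewrite the dual defect with the centred functions
    have e1 : ∀ k, SSq (fun X : Omega (fun _ : Fin 3 => ρ) c => φ k (X.1 k))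
        = ∑ X : Omega (fun _ : Fin 3 => ρ) c, ψ k (X.1 k) ^ 2 := by
      intro k
      rw [hψ, hμ]
      rfl
    have e2 : SSq (fun X : Omega (fun _ : Fin 3 => ρ) c => ∑ k : Fin 3, φ k (X.1 k))
        = ∑ X : Omega (fun _ : Fin 3 => ρ) c, (ψ 0 (X.1 0) + ψ 1 (X.1 1) + ψ 2 (X.1 2)) ^ 2 := by
      unfold SSq
      refine Finset.sum_congr rfl (fun X _ => ?_)
      have hm : (∑ Y : Omega (fun _ : Fin 3 => ρ) c, ∑ k : Fin 3, φ k (Y.1 k))
          / (Fintype.card (Omega (fun _ : Fin 3 => ρ) c) : ℝ) = μ 0 + μ 1 + μ 2 := by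
        rw [Finset.sum_comm, Fin.sum_univ_three, add_div, add_div, hμ]
      beta_reduce
      rw [hm, Fin.sum_univ_three, hψ]
      ring
    unfold dualDefect
    rw [e2, Fin.sum_univ_three, e1 0, e1 1, e1 2]
    linarith
  have hp := (gapDefect_nonneg_iff_dual (fun _ : Fin 3 => ρ) c).2 hd
  intro f
  have h := hp f
  unfold gapDefect at h
  linarith

/-- Mixing of the lazy `2 x 2` heat-bath chain on classes with equal row sums, from (EX). -/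
theorem block_mixing_time_of_exHyp (hyp : ExHyp) {m n : ℕ} (hm : 2 ≤ m) (hn : 2 ≤ n)
    (ρ : ℕ) (c : Fin n → ℕ) (ε : ℝ) (hε : 0 < ε) (t : ℕ)
    (ht : (m : ℝ) * (m - 1) * ((n : ℝ) * (n - 1)) / 2
      * ((m : ℝ) * ∑ j, Real.log ((c j : ℝ) + 1) + 2 * Real.log (1 / ε)) ≤ t)
    (X : Omega (fun _ : Fin m => ρ) c) :
    (1 / 2 : ℝ) * ∑ Y, |(((1 / 2 : ℝ) • (1 + blockChain (fun _ : Fin m => ρ) c)) ^ t) X Y
        - 1 / (Fintype.card (Omega (fun _ : Fin m => ρ) c) : ℝ)| ≤ ε :=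
  block_mixing_time_eq (threeRowGapEq_of_exHyp hyp) hm hn ρ c ε hε t ht X

/-- Mixing of the lazy row-pair chain on classes with equal row sums, from (EX). -/
theorem rowPair_mixing_time_of_exHyp (hyp : ExHyp) {m n : ℕ} (hm : 2 ≤ m)
    (ρ : ℕ) (c : Fin n → ℕ) (ε : ℝ) (hε : 0 < ε) (t : ℕ)
    (ht : (m : ℝ) * (m - 1) * ((m : ℝ) * ∑ j, Real.log ((c j : ℝ) + 1)
      + 2 * Real.log (1 / ε)) ≤ t) (X : Omega (fun _ : Fin m => ρ) c) :
    (1 / 2 : ℝ) * ∑ Y, |(((1 / 2 : ℝ) • (1 + rowPairChain (fun _ : Fin m => ρ) c)) ^ t) X Y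
        - 1 / (Fintype.card (Omega (fun _ : Fin m => ρ) c) : ℝ)| ≤ ε :=
  rowPair_mixing_time_eq (threeRowGapEq_of_exHyp hyp) hm ρ c ε hε t ht X

end Vale.Agent.H25.CT
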