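import Mathlib

/-!
P328, row R-PEEL: hook peeling on a rectangle (Lemma 1 and Lemma 2 of the team note #1218).

`R = [0,p] × [0,q]` with counting measure, `ψ (x,y) = φ (x - y)` a diagonal function.
`fit p q φ α β = ∑_R (ψ - α x - β y)²` for an additive function `α x + β y`;
`lamVar p q φ = |Λ ψ - E ψ|²`, `Λ = E[· | min (x,y)]` the average over the hooks
`{min (x,y) = t}`.

* `peel`: for the outer rectangle `[0,p+1] × [0,q+1]`, its outer hook `H` and the inner
  rectangle `R'` (shifted to the origin it is `[0,p] × [0,q]` with the same `φ`): every additive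
  fit on `R` exceeds some additive fit on `R'` by at least
  `3 (|H| |R'| / |R|) (mean_H ψ - mean_R' ψ)²`.
* `rect_ineq`: `3 |Λ ψ - E ψ|² ≤ ∑_R (ψ - α x - β y)²` for every additive `α x + β y`.

Paper proof of `peel`.  With `P = p+1`, `Q = q+1`, `T = P+Q+1` put on the outer rectangle
`η (0,y) = P (2y - Q)`, `η (x,0) = Q (2x - P)`, `η (x,y) = T - 2x - 2y` (`x, y ≥ 1`).  All row
and column sums of `η` vanish; `3 ∑ η² = P Q T (P+1) (Q+1)`; `∑ ψ η = P Q ∑_H ψ - T ∑_R' ψ`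
(telescoping along the diagonals with `G (x,y) = -2 (P-x) (Q-y)`); `η` is additive on `R'`.
Hence for `e = ψ - α - β` and real `t`:
`∑_R' (e - t η)² ≤ ∑_R (e - t η)² = ∑_R e² - 2 t ∑ ψ η + t² ∑ η²`; optimise `t`.
`rect_ineq` follows by induction, peeling one hook at a time.
-/

namespace Vale.Agent.H25.CT

open Finset

/-- The rectangle `[0,p] × [0,q]` of lattice points. -/
def rect (p q : ℕ) : Finset (ℕ × ℕ) := range (p + 1) ×ˢ range (q + 1)

/-- The hook `{min(x,y) = t}` of the rectangle `[0,p] × [0,q]`. -/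
def hook (p q t : ℕ) : Finset (ℕ × ℕ) := (rect p q).filter (fun z => min z.1 z.2 = t)

/-- The diagonal function `(x,y) ↦ φ (x - y)`. -/
def diag (φ : ℤ → ℝ) (z : ℕ × ℕ) : ℝ := φ ((z.1 : ℤ) - (z.2 : ℤ))

/-- The sum of the diagonal function over the rectangle. -/
noncomputable def rsum (p q : ℕ) (φ : ℤ → ℝ) : ℝ := ∑ z ∈ rect p q, diag φ z

/-- The squared distance of the diagonal function from the additive function
`α x + β y` on the rectangle. -/
noncomputable def fit (p q : ℕ) (φ : ℤ → ℝ) (α β : ℕ → ℝ) : ℝ :=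
  ∑ z ∈ rect p q, (diag φ z - α z.1 - β z.2) ^ 2

/-- The variance of the hook averages: `|Λ ψ - E ψ|²`, `Λ = E[· | min(x,y)]`. -/
noncomputable def lamVar (p q : ℕ) (φ : ℤ → ℝ) : ℝ :=
  ∑ t ∈ range (min p q + 1), ((hook p q t).card : ℝ) *
    ((∑ z ∈ hook p q t, diag φ z) / ((hook p q t).card : ℝ)
      - rsum p q φ / ((rect p q).card : ℝ)) ^ 2

/-- The hook average at a point. -/
noncomputable def lamAvg (p q : ℕ) (φ : ℤ → ℝ) (z : ℕ × ℕ) : ℝ :=
  (∑ w ∈ hook p q (min z.1 z.2), diag φ w) / ((hook p q (min z.1 z.2)).card : ℝ)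

/-! ### Membership and sums over the rectangle -/

theorem mem_rect (p q : ℕ) (z : ℕ × ℕ) : z ∈ rect p q ↔ z.1 ≤ p ∧ z.2 ≤ q := by
  unfold rect
  rw [Finset.mem_product, Finset.mem_range, Finset.mem_range]
  omega

theorem mem_hook (p q t : ℕ) (z : ℕ × ℕ) :
    z ∈ hook p q t ↔ z.1 ≤ p ∧ z.2 ≤ q ∧ min z.1 z.2 = t := by
  unfold hook
  rw [Finset.mem_filter, mem_rect]
  tauto

theorem card_rect (p q : ℕ) : ((rect p q).card : ℝ) = ((p : ℝ) + 1) * ((q : ℝ) + 1) := by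
  unfold rect
  rw [Finset.card_product, Finset.card_range, Finset.card_range]
  push_cast
  ring

theorem sum_rect (p q : ℕ) (F : ℕ × ℕ → ℝ) :
    ∑ z ∈ rect p q, F z = ∑ x ∈ range (p + 1), ∑ y ∈ range (q + 1), F (x, y) := by
  unfold rect
  rw [Finset.sum_product]

theorem diag_succ (φ : ℤ → ℝ) (x y : ℕ) : diag φ (x + 1, y + 1) = diag φ (x, y) := by
  unfold diag
  congr 1
  push_cast
  ring

/-- Splitting off the first row and the first column of a double sum. -/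
theorem dsum_split_first (p q : ℕ) (F : ℕ → ℕ → ℝ) :
    ∑ x ∈ range (p + 2), ∑ y ∈ range (q + 2), F x y
      = ∑ x ∈ range (p + 1), ∑ y ∈ range (q + 1), F (x + 1) (y + 1)
        + ∑ x ∈ range (p + 1), F (x + 1) 0 + ∑ y ∈ range (q + 1), F 0 (y + 1) + F 0 0 := by
  rw [Finset.sum_range_succ']
  have h1 : ∀ x : ℕ, ∑ y ∈ range (q + 2), F x y
      = ∑ y ∈ range (q + 1), F x (y + 1) + F x 0 := fun x => Finset.sum_range_succ' _ _
  rw [h1 0, Finset.sum_congr rfl (fun x _ => h1 (x + 1)), Finset.sum_add_distrib]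
  ring

/-- Splitting off the last row and the last column of a double sum. -/
theorem dsum_split_last (p q : ℕ) (F : ℕ → ℕ → ℝ) :
    ∑ x ∈ range (p + 2), ∑ y ∈ range (q + 2), F x y
      = ∑ x ∈ range (p + 1), ∑ y ∈ range (q + 1), F x y
        + ∑ x ∈ range (p + 1), F x (q + 1) + ∑ y ∈ range (q + 1), F (p + 1) y
        + F (p + 1) (q + 1) := by
  rw [Finset.sum_range_succ]
  have h1 : ∀ x : ℕ, ∑ y ∈ range (q + 2), F x y
      = ∑ y ∈ range (q + 1), F x y + F x (q + 1) := fun x => Finset.sum_range_succ _ _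
  rw [h1 (p + 1), Finset.sum_congr rfl (fun x _ => h1 x), Finset.sum_add_distrib]
  ring

/-! ### Sums of polynomials -/

theorem sum_lin (n : ℕ) (c0 c1 : ℝ) :
    ∑ i ∈ range n, (c0 + c1 * ((i : ℝ) + 1)) = n * c0 + c1 * ((n : ℝ) * (n + 1) / 2) := by
  induction n with
  | zero => simp
  | succ k ih =>
    rw [Finset.sum_range_succ, ih]
    push_cast
    ring

theorem sum_quad (n : ℕ) (c0 c1 c2 : ℝ) :
    ∑ i ∈ range n, (c0 + c1 * ((i : ℝ) + 1) + c2 * ((i : ℝ) + 1) ^ 2)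
      = n * c0 + c1 * ((n : ℝ) * (n + 1) / 2)
        + c2 * ((n : ℝ) * (n + 1) * (2 * n + 1) / 6) := by
  induction n with
  | zero => simp
  | succ k ih =>
    rw [Finset.sum_range_succ, ih]
    push_cast
    ring

/-! ### The certificate -/

/-- The (scaled) certificate on the outer rectangle `[0,p+1] × [0,q+1]`. -/
noncomputable def eta (p q : ℕ) (x y : ℕ) : ℝ :=
  if x = 0 then ((p : ℝ) + 1) * (2 * (y : ℝ) - ((q : ℝ) + 1))
  else if y = 0 then ((q : ℝ) + 1) * (2 * (x : ℝ) - ((p : ℝ) + 1))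
  else ((p : ℝ) + q + 3) - 2 * (x : ℝ) - 2 * (y : ℝ)

theorem eta_zero_left (p q y : ℕ) :
    eta p q 0 y = ((p : ℝ) + 1) * (2 * (y : ℝ) - ((q : ℝ) + 1)) := by
  unfold eta
  rw [if_pos rfl]

theorem eta_succ_zero (p q x : ℕ) :
    eta p q (x + 1) 0 = ((q : ℝ) + 1) * (2 * ((x : ℝ) + 1) - ((p : ℝ) + 1)) := by
  unfold eta
  rw [if_neg (Nat.succ_ne_zero x), if_pos rfl]
  push_cast
  ring

theorem eta_succ_succ (p q x y : ℕ) :
    eta p q (x + 1) (y + 1) = ((p : ℝ) + q + 3) - 2 * ((x : ℝ) + 1) - 2 * ((y : ℝ) + 1) := by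
  unfold eta
  rw [if_neg (Nat.succ_ne_zero x), if_neg (Nat.succ_ne_zero y)]
  push_cast
  ring

theorem eta_symm (p q x y : ℕ) : eta p q x y = eta q p y x := by
  rcases Nat.eq_zero_or_eq_succ_pred x with hx | hx
  · rcases Nat.eq_zero_or_eq_succ_pred y with hy | hy
    · rw [hx, hy, eta_zero_left, eta_zero_left]
      push_cast
      ring
    · rw [hx, hy, eta_zero_left, eta_succ_zero]
      push_cast
      ring
  · rcases Nat.eq_zero_or_eq_succ_pred y with hy | hy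
    · rw [hx, hy, eta_zero_left, eta_succ_zero]
      push_cast
      ring
    · rw [hx, hy, eta_succ_succ, eta_succ_succ]
      ring

/-- Every column sum of the certificate vanishes. -/
theorem eta_col_sum (p q x : ℕ) : ∑ y ∈ range (q + 2), eta p q x y = 0 := by
  rw [Finset.sum_range_succ']
  rcases Nat.eq_zero_or_eq_succ_pred x with hx | hx
  · rw [hx, eta_zero_left]
    have h : ∀ y ∈ range (q + 1), eta p q 0 (y + 1)
        = (-(((p : ℝ) + 1) * ((q : ℝ) + 1))) + (2 * ((p : ℝ) + 1)) * ((y : ℝ) + 1) := by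
      intro y _
      rw [eta_zero_left]
      push_cast
      ring
    rw [Finset.sum_congr rfl h, sum_lin]
    push_cast
    ring
  · rw [hx, eta_succ_zero]
    have h : ∀ y ∈ range (q + 1), eta p q (x.pred + 1) (y + 1)
        = (((p : ℝ) + q + 3) - 2 * ((x.pred : ℝ) + 1)) + (-2) * ((y : ℝ) + 1) := by
      intro y _
      rw [eta_succ_succ]
      ring
    rw [Finset.sum_congr rfl h, sum_lin]
    push_cast
    ring

/-- Every row sum of the certificate vanishes. -/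
theorem eta_row_sum (p q y : ℕ) : ∑ x ∈ range (p + 2), eta p q x y = 0 := by
  rw [Finset.sum_congr rfl (fun x _ => eta_symm p q x y)]
  exact eta_col_sum q p y

/-- The squared norm of the certificate. -/
theorem eta_sq_sum (p q : ℕ) :
    3 * ∑ x ∈ range (p + 2), ∑ y ∈ range (q + 2), (eta p q x y) ^ 2
      = ((p : ℝ) + 1) * ((q : ℝ) + 1) * ((p : ℝ) + q + 3) * ((p : ℝ) + 2) * ((q : ℝ) + 2) := by
  have hcol0 : ∑ y ∈ range (q + 2), (eta p q 0 y) ^ 2
      = ((p : ℝ) + 1) ^ 2 * ((q : ℝ) + 1) * ((q : ℝ) + 2) * ((q : ℝ) + 3) / 3 := by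
    rw [Finset.sum_range_succ']
    have h : ∀ y ∈ range (q + 1), (eta p q 0 (y + 1)) ^ 2
        = (((p : ℝ) + 1) ^ 2 * ((q : ℝ) + 1) ^ 2)
          + (-4 * ((p : ℝ) + 1) ^ 2 * ((q : ℝ) + 1)) * ((y : ℝ) + 1)
          + (4 * ((p : ℝ) + 1) ^ 2) * ((y : ℝ) + 1) ^ 2 := by
      intro y _
      rw [eta_zero_left]
      push_cast
      ring
    rw [Finset.sum_congr rfl h, sum_quad, eta_zero_left]
    push_cast
    ring
  have hcol : ∀ x ∈ range (p + 1), ∑ y ∈ range (q + 2), (eta p q (x + 1) y) ^ 2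
      = (((q : ℝ) + 1) ^ 2 * ((p : ℝ) + 1) ^ 2 + ((q : ℝ) + 1) * ((p : ℝ) + q + 3) ^ 2
          - 2 * ((p : ℝ) + q + 3) * ((q : ℝ) + 1) * ((q : ℝ) + 2)
          + 2 * ((q : ℝ) + 1) * ((q : ℝ) + 2) * (2 * (q : ℝ) + 3) / 3)
        + (-4 * ((q : ℝ) + 1) ^ 2 * ((p : ℝ) + 1) - 4 * ((q : ℝ) + 1) * ((p : ℝ) + q + 3)
          + 4 * ((q : ℝ) + 1) * ((q : ℝ) + 2)) * ((x : ℝ) + 1)
        + (4 * ((q : ℝ) + 1) ^ 2 + 4 * ((q : ℝ) + 1)) * ((x : ℝ) + 1) ^ 2 := by
    intro x _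
    rw [Finset.sum_range_succ']
    have h : ∀ y ∈ range (q + 1), (eta p q (x + 1) (y + 1)) ^ 2
        = ((((p : ℝ) + q + 3) - 2 * ((x : ℝ) + 1)) ^ 2)
          + (-4 * (((p : ℝ) + q + 3) - 2 * ((x : ℝ) + 1))) * ((y : ℝ) + 1)
          + 4 * ((y : ℝ) + 1) ^ 2 := by
      intro y _
      rw [eta_succ_succ]
      ring
    rw [Finset.sum_congr rfl h, sum_quad, eta_succ_zero]
    push_cast
    ring
  rw [Finset.sum_range_succ', Finset.sum_congr rfl hcol, sum_quad, hcol0]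
  push_cast
  ring

/-- The pairing of a diagonal function with the certificate. -/
theorem eta_diag_sum (p q : ℕ) (φ : ℤ → ℝ) :
    ∑ x ∈ range (p + 2), ∑ y ∈ range (q + 2), diag φ (x, y) * eta p q x y
      = ((p : ℝ) + 1) * ((q : ℝ) + 1) * (rsum (p + 1) (q + 1) φ - rsum p q φ)
        - ((p : ℝ) + q + 3) * rsum p q φ := by
  -- the telescoping function
  set G : ℕ → ℕ → ℝ := fun x y => -2 * (((p : ℝ) + 1) - x) * (((q : ℝ) + 1) - y) with hG
  have hGlast1 : ∀ x : ℕ, G x (q + 1) = 0 := by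
    intro x
    rw [hG]
    push_cast
    ring
  have hGlast2 : ∀ y : ℕ, G (p + 1) y = 0 := by
    intro y
    rw [hG]
    push_cast
    ring
  have hr' : rsum (p + 1) (q + 1) φ
      = ∑ x ∈ range (p + 1), ∑ y ∈ range (q + 1), diag φ (x, y)
        + ∑ x ∈ range (p + 1), diag φ (x + 1, 0) + ∑ y ∈ range (q + 1), diag φ (0, y + 1)
        + diag φ (0, 0) := by
    unfold rsum
    rw [sum_rect, dsum_split_first p q (fun x y => diag φ (x, y))]
    congr 3
    exact Finset.sum_congr rfl (fun x _ => Finset.sum_congr rfl (fun y _ => diag_succ φ x y))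
  have hr : rsum p q φ = ∑ x ∈ range (p + 1), ∑ y ∈ range (q + 1), diag φ (x, y) := by
    unfold rsum
    rw [sum_rect]
  -- the sum of `ψ G` over the outer rectangle, split in the two ways
  have hA := dsum_split_first p q (fun x y => diag φ (x, y) * G x y)
  have hB := dsum_split_last p q (fun x y => diag φ (x, y) * G x y)
  simp only [hGlast1, hGlast2, mul_zero, Finset.sum_const_zero, add_zero] at hB
  rw [dsum_split_first p q (fun x y => diag φ (x, y) * eta p q x y)]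
  have e1 : ∑ x ∈ range (p + 1), ∑ y ∈ range (q + 1), diag φ (x + 1, y + 1) * eta p q (x + 1) (y + 1)
      = ∑ x ∈ range (p + 1), ∑ y ∈ range (q + 1), diag φ (x + 1, y + 1) * G (x + 1) (y + 1)
        - ∑ x ∈ range (p + 1), ∑ y ∈ range (q + 1), diag φ (x, y) * G x y
        - ((p : ℝ) + q + 3) * ∑ x ∈ range (p + 1), ∑ y ∈ range (q + 1), diag φ (x, y) := by
    rw [Finset.mul_sum, ← Finset.sum_sub_distrib, ← Finset.sum_sub_distrib]
    refine Finset.sum_congr rfl (fun x _ => ?_)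
    rw [Finset.mul_sum, ← Finset.sum_sub_distrib, ← Finset.sum_sub_distrib]
    refine Finset.sum_congr rfl (fun y _ => ?_)
    rw [eta_succ_succ, diag_succ, hG]
    push_cast
    ring
  have e2 : ∑ x ∈ range (p + 1), diag φ (x + 1, 0) * eta p q (x + 1) 0
      = ∑ x ∈ range (p + 1), diag φ (x + 1, 0) * G (x + 1) 0
        + ((p : ℝ) + 1) * ((q : ℝ) + 1) * ∑ x ∈ range (p + 1), diag φ (x + 1, 0) := by
    rw [Finset.mul_sum, ← Finset.sum_add_distrib]
    refine Finset.sum_congr rfl (fun x _ => ?_)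
    rw [eta_succ_zero, hG]
    push_cast
    ring
  have e3 : ∑ y ∈ range (q + 1), diag φ (0, y + 1) * eta p q 0 (y + 1)
      = ∑ y ∈ range (q + 1), diag φ (0, y + 1) * G 0 (y + 1)
        + ((p : ℝ) + 1) * ((q : ℝ) + 1) * ∑ y ∈ range (q + 1), diag φ (0, y + 1) := by
    rw [Finset.mul_sum, ← Finset.sum_add_distrib]
    refine Finset.sum_congr rfl (fun y _ => ?_)
    rw [eta_zero_left, hG]
    push_cast
    ring
  have e4 : diag φ (0, 0) * eta p q 0 0
      = diag φ (0, 0) * G 0 0 + ((p : ℝ) + 1) * ((q : ℝ) + 1) * diag φ (0, 0) := by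
    rw [eta_zero_left, hG]
    push_cast
    ring
  rw [e1, e2, e3, e4, hr', hr]
  linarith [hA, hB]

/-! ### Lemma 1 (PEEL) -/

/-- Lemma 1 (PEEL).  Outer rectangle `R = [0,p+1] × [0,q+1]`, outer hook `H` (`p+q+3` points,
`∑_H ψ = rsum (p+1) (q+1) φ - rsum p q φ`), inner rectangle `R'` (shifted to the origin:
`[0,p] × [0,q]` with the same `φ`).  Every additive fit on `R` exceeds some additive fit on
`R'` by at least `3 (|H| |R'| / |R|) (mean_H ψ - mean_R' ψ)²`. -/
theorem peel (p q : ℕ) (φ : ℤ → ℝ) (α β : ℕ → ℝ) :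
    ∃ α' β' : ℕ → ℝ,
      fit p q φ α' β'
        + 3 * ((((p : ℝ) + q + 3) * (((p : ℝ) + 1) * ((q : ℝ) + 1)))
            / (((p : ℝ) + 2) * ((q : ℝ) + 2)))
          * ((rsum (p + 1) (q + 1) φ - rsum p q φ) / ((p : ℝ) + q + 3)
              - rsum p q φ / (((p : ℝ) + 1) * ((q : ℝ) + 1))) ^ 2
        ≤ fit (p + 1) (q + 1) φ α β := by
  have hP : (0 : ℝ) < (p : ℝ) + 1 := by positivity
  have hQ : (0 : ℝ) < (q : ℝ) + 1 := by positivity
  have hT : (0 : ℝ) < (p : ℝ) + q + 3 := by positivity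
  have hP2 : (0 : ℝ) < (p : ℝ) + 2 := by positivity
  have hQ2 : (0 : ℝ) < (q : ℝ) + 2 := by positivity
  -- the pairing `Δ` and the squared norm `N` of the certificate
  set Δ : ℝ := ((p : ℝ) + 1) * ((q : ℝ) + 1) * (rsum (p + 1) (q + 1) φ - rsum p q φ)
      - ((p : ℝ) + q + 3) * rsum p q φ with hΔ
  set N : ℝ := ∑ x ∈ range (p + 2), ∑ y ∈ range (q + 2), (eta p q x y) ^ 2 with hN
  have hN3 : 3 * N
      = ((p : ℝ) + 1) * ((q : ℝ) + 1) * ((p : ℝ) + q + 3) * ((p : ℝ) + 2) * ((q : ℝ) + 2) :=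
    eta_sq_sum p q
  have hNpos : 0 < N := by
    have : 0 < 3 * N := by rw [hN3]; positivity
    linarith
  set t : ℝ := Δ / N with ht
  -- the residual on the outer rectangle
  set e : ℕ → ℕ → ℝ := fun x y => diag φ (x, y) - α x - β y with he
  -- pairing of the residual with the certificate
  have hpair : ∑ x ∈ range (p + 2), ∑ y ∈ range (q + 2), e x y * eta p q x y = Δ := by
    have h1 : ∑ x ∈ range (p + 2), ∑ y ∈ range (q + 2), e x y * eta p q x y
        = ∑ x ∈ range (p + 2), ∑ y ∈ range (q + 2), diag φ (x, y) * eta p q x y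
          - ∑ x ∈ range (p + 2), ∑ y ∈ range (q + 2), α x * eta p q x y
          - ∑ x ∈ range (p + 2), ∑ y ∈ range (q + 2), β y * eta p q x y := by
      rw [← Finset.sum_sub_distrib, ← Finset.sum_sub_distrib]
      refine Finset.sum_congr rfl (fun x _ => ?_)
      rw [← Finset.sum_sub_distrib, ← Finset.sum_sub_distrib]
      refine Finset.sum_congr rfl (fun y _ => ?_)
      rw [he]
      ring
    have h2 : ∑ x ∈ range (p + 2), ∑ y ∈ range (q + 2), α x * eta p q x y = 0 := by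
      refine Finset.sum_eq_zero (fun x _ => ?_)
      rw [← Finset.mul_sum, eta_col_sum, mul_zero]
    have h3 : ∑ x ∈ range (p + 2), ∑ y ∈ range (q + 2), β y * eta p q x y = 0 := by
      rw [Finset.sum_comm]
      refine Finset.sum_eq_zero (fun y _ => ?_)
      rw [← Finset.mul_sum, eta_row_sum, mul_zero]
    rw [h1, h2, h3, eta_diag_sum, hΔ]
    ring
  -- the sum of `(e - t η)²` over the outer rectangle
  have hbig : ∑ x ∈ range (p + 2), ∑ y ∈ range (q + 2), (e x y - t * eta p q x y) ^ 2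
      = fit (p + 1) (q + 1) φ α β - Δ ^ 2 / N := by
    have h1 : ∑ x ∈ range (p + 2), ∑ y ∈ range (q + 2), (e x y - t * eta p q x y) ^ 2
        = ∑ x ∈ range (p + 2), ∑ y ∈ range (q + 2), (e x y) ^ 2
          - 2 * t * ∑ x ∈ range (p + 2), ∑ y ∈ range (q + 2), e x y * eta p q x y
          + t ^ 2 * N := by
      rw [hN, Finset.mul_sum, Finset.mul_sum, ← Finset.sum_sub_distrib, ← Finset.sum_add_distrib]
      refine Finset.sum_congr rfl (fun x _ => ?_)
      rw [Finset.mul_sum, Finset.mul_sum, ← Finset.sum_sub_distrib, ← Finset.sum_add_distrib]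
      refine Finset.sum_congr rfl (fun y _ => ?_)
      ring
    have h2 : ∑ x ∈ range (p + 2), ∑ y ∈ range (q + 2), (e x y) ^ 2
        = fit (p + 1) (q + 1) φ α β := by
      unfold fit
      rw [sum_rect]
    rw [h1, hpair, h2, ht]
    field_simp
    ring
  -- restriction to the inner rectangle
  refine ⟨fun x => α (x + 1) + t * (((p : ℝ) + q + 3) / 2 - 2 * ((x : ℝ) + 1)),
    fun y => β (y + 1) + t * (((p : ℝ) + q + 3) / 2 - 2 * ((y : ℝ) + 1)), ?_⟩
  have hsmall : fit p q φ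
      (fun x => α (x + 1) + t * (((p : ℝ) + q + 3) / 2 - 2 * ((x : ℝ) + 1)))
      (fun y => β (y + 1) + t * (((p : ℝ) + q + 3) / 2 - 2 * ((y : ℝ) + 1)))
      = ∑ x ∈ range (p + 1), ∑ y ∈ range (q + 1),
          (e (x + 1) (y + 1) - t * eta p q (x + 1) (y + 1)) ^ 2 := by
    unfold fit
    rw [sum_rect]
    refine Finset.sum_congr rfl (fun x _ => Finset.sum_congr rfl (fun y _ => ?_))
    rw [he, eta_succ_succ]
    simp only
    rw [diag_succ]
    ring
  have hle : ∑ x ∈ range (p + 1), ∑ y ∈ range (q + 1),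
      (e (x + 1) (y + 1) - t * eta p q (x + 1) (y + 1)) ^ 2
      ≤ ∑ x ∈ range (p + 2), ∑ y ∈ range (q + 2), (e x y - t * eta p q x y) ^ 2 := by
    rw [dsum_split_first p q (fun x y => (e x y - t * eta p q x y) ^ 2)]
    have n1 : 0 ≤ ∑ x ∈ range (p + 1), (e (x + 1) 0 - t * eta p q (x + 1) 0) ^ 2 :=
      Finset.sum_nonneg (fun x _ => sq_nonneg _)
    have n2 : 0 ≤ ∑ y ∈ range (q + 1), (e 0 (y + 1) - t * eta p q 0 (y + 1)) ^ 2 :=
      Finset.sum_nonneg (fun y _ => sq_nonneg _)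
    have n3 : 0 ≤ (e 0 0 - t * eta p q 0 0) ^ 2 := sq_nonneg _
    linarith
  rw [hsmall]
  have hconst : 3 * ((((p : ℝ) + q + 3) * (((p : ℝ) + 1) * ((q : ℝ) + 1)))
            / (((p : ℝ) + 2) * ((q : ℝ) + 2)))
          * ((rsum (p + 1) (q + 1) φ - rsum p q φ) / ((p : ℝ) + q + 3)
              - rsum p q φ / (((p : ℝ) + 1) * ((q : ℝ) + 1))) ^ 2 = Δ ^ 2 / N := by
    have hNe : N = ((p : ℝ) + 1) * ((q : ℝ) + 1) * ((p : ℝ) + q + 3) * ((p : ℝ) + 2)
        * ((q : ℝ) + 2) / 3 := by linarith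
    rw [hNe, hΔ]
    field_simp
  rw [hconst]
  linarith

/-! ### Hooks -/

/-- The outer rectangle is the outer hook together with the shifted inner rectangle. -/
theorem sum_rect_succ (p q : ℕ) (F : ℕ × ℕ → ℝ) :
    ∑ z ∈ rect (p + 1) (q + 1), F z
      = ∑ z ∈ hook (p + 1) (q + 1) 0, F z + ∑ z ∈ rect p q, F (z.1 + 1, z.2 + 1) := by
  unfold hook
  rw [← Finset.sum_filter_add_sum_filter_not (rect (p + 1) (q + 1))
    (fun z => min z.1 z.2 = 0) F]
  congr 1
  refine Finset.sum_nbij' (fun z => (z.1 - 1, z.2 - 1)) (fun z => (z.1 + 1, z.2 + 1))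
    ?_ ?_ ?_ ?_ ?_
  · intro z hz
    rw [Finset.mem_filter, mem_rect] at hz
    rw [mem_rect]
    obtain ⟨⟨h1, h2⟩, h3⟩ := hz
    have h4 : 1 ≤ z.1 ∧ 1 ≤ z.2 := by omega
    constructor <;> simp only <;> omega
  · intro z hz
    rw [mem_rect] at hz
    rw [Finset.mem_filter, mem_rect]
    obtain ⟨h1, h2⟩ := hz
    refine ⟨⟨?_, ?_⟩, ?_⟩ <;> simp only <;> omega
  · intro z hz
    rw [Finset.mem_filter, mem_rect] at hz
    obtain ⟨⟨h1, h2⟩, h3⟩ := hz
    have h4 : 1 ≤ z.1 ∧ 1 ≤ z.2 := by omega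
    apply Prod.ext <;> simp only <;> omega
  · intro z _
    apply Prod.ext <;> simp only <;> omega
  · intro z hz
    rw [Finset.mem_filter, mem_rect] at hz
    obtain ⟨⟨h1, h2⟩, h3⟩ := hz
    have h4 : 1 ≤ z.1 ∧ 1 ≤ z.2 := by omega
    have e1 : z.1 - 1 + 1 = z.1 := by omega
    have e2 : z.2 - 1 + 1 = z.2 := by omega
    simp only
    rw [e1, e2]

/-- The hook of level `t + 1` of the outer rectangle is the shifted hook of level `t` of the
inner rectangle. -/
theorem sum_hook_succ (p q t : ℕ) (F : ℕ × ℕ → ℝ) :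
    ∑ z ∈ hook (p + 1) (q + 1) (t + 1), F z = ∑ z ∈ hook p q t, F (z.1 + 1, z.2 + 1) := by
  refine Finset.sum_nbij' (fun z => (z.1 - 1, z.2 - 1)) (fun z => (z.1 + 1, z.2 + 1))
    ?_ ?_ ?_ ?_ ?_
  · intro z hz
    rw [mem_hook] at hz
    rw [mem_hook]
    obtain ⟨h1, h2, h3⟩ := hz
    have h4 : 1 ≤ z.1 ∧ 1 ≤ z.2 := by omega
    refine ⟨?_, ?_, ?_⟩ <;> simp only <;> omega
  · intro z hz
    rw [mem_hook] at hz
    rw [mem_hook]
    obtain ⟨h1, h2, h3⟩ := hz
    refine ⟨?_, ?_, ?_⟩ <;> simp only <;> omega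
  · intro z hz
    rw [mem_hook] at hz
    obtain ⟨h1, h2, h3⟩ := hz
    have h4 : 1 ≤ z.1 ∧ 1 ≤ z.2 := by omega
    apply Prod.ext <;> simp only <;> omega
  · intro z _
    apply Prod.ext <;> simp only <;> omega
  · intro z hz
    rw [mem_hook] at hz
    obtain ⟨h1, h2, h3⟩ := hz
    have h4 : 1 ≤ z.1 ∧ 1 ≤ z.2 := by omega
    have e1 : z.1 - 1 + 1 = z.1 := by omega
    have e2 : z.2 - 1 + 1 = z.2 := by omega
    simp only
    rw [e1, e2]

/-- The sum of `ψ` over the outer hook. -/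
theorem hook_zero_sum (p q : ℕ) (φ : ℤ → ℝ) :
    ∑ z ∈ hook (p + 1) (q + 1) 0, diag φ z = rsum (p + 1) (q + 1) φ - rsum p q φ := by
  have h := sum_rect_succ p q (diag φ)
  have h2 : ∑ z ∈ rect p q, diag φ (z.1 + 1, z.2 + 1) = ∑ z ∈ rect p q, diag φ z :=
    Finset.sum_congr rfl (fun z _ => diag_succ φ z.1 z.2)
  unfold rsum
  rw [h, h2]
  ring

/-- The outer hook has `p + q + 3` points. -/
theorem card_hook_zero (p q : ℕ) : ((hook (p + 1) (q + 1) 0).card : ℝ) = (p : ℝ) + q + 3 := by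
  have h := sum_rect_succ p q (fun _ => (1 : ℝ))
  simp only [Finset.sum_const, nsmul_eq_mul, mul_one] at h
  rw [card_rect, card_rect] at h
  push_cast at h
  linarith

/-- Shift of the hook sums of a diagonal function. -/
theorem hook_succ_sum (p q t : ℕ) (φ : ℤ → ℝ) :
    ∑ z ∈ hook (p + 1) (q + 1) (t + 1), diag φ z = ∑ z ∈ hook p q t, diag φ z := by
  rw [sum_hook_succ]
  exact Finset.sum_congr rfl (fun z _ => diag_succ φ z.1 z.2)

/-- Shift of the hook sizes. -/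
theorem card_hook_succ (p q t : ℕ) :
    ((hook (p + 1) (q + 1) (t + 1)).card : ℝ) = ((hook p q t).card : ℝ) := by
  have h := sum_hook_succ p q t (fun _ => (1 : ℝ))
  simp only [Finset.sum_const, nsmul_eq_mul, mul_one] at h
  exact h

/-- The hooks of levels `0, …, min p q` partition the rectangle. -/
theorem sum_hooks (p q : ℕ) (F : ℕ × ℕ → ℝ) :
    ∑ t ∈ range (min p q + 1), ∑ z ∈ hook p q t, F z = ∑ z ∈ rect p q, F z := by
  unfold hook
  refine Finset.sum_fiberwise_of_maps_to (g := fun z : ℕ × ℕ => min z.1 z.2) ?_ F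
  intro z hz
  rw [mem_rect] at hz
  rw [Finset.mem_range]
  omega

theorem sum_card_hooks (p q : ℕ) :
    ∑ t ∈ range (min p q + 1), ((hook p q t).card : ℝ) = ((p : ℝ) + 1) * ((q : ℝ) + 1) := by
  have h := sum_hooks p q (fun _ => (1 : ℝ))
  simp only [Finset.sum_const, nsmul_eq_mul, mul_one] at h
  rw [h, card_rect]

/-- The hooks of levels `0, …, min p q` are not empty. -/
theorem card_hook_ne_zero (p q t : ℕ) (ht : t ∈ range (min p q + 1)) :
    ((hook p q t).card : ℝ) ≠ 0 := by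
  rw [Finset.mem_range] at ht
  have hmem : (t, t) ∈ hook p q t := by
    rw [mem_hook]
    refine ⟨?_, ?_, ?_⟩ <;> simp only <;> omega
  have hpos : 0 < (hook p q t).card := Finset.card_pos.2 ⟨(t, t), hmem⟩
  have : (0 : ℝ) < ((hook p q t).card : ℝ) := by exact_mod_cast hpos
  exact ne_of_gt this

/-! ### Lemma 2 (RECT) -/

/-- Sequential variance identity: peeling the outer hook. -/
theorem lamVar_succ (p q : ℕ) (φ : ℤ → ℝ) :
    lamVar (p + 1) (q + 1) φ = lamVar p q φ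
      + ((((p : ℝ) + q + 3) * (((p : ℝ) + 1) * ((q : ℝ) + 1)))
            / (((p : ℝ) + 2) * ((q : ℝ) + 2)))
          * ((rsum (p + 1) (q + 1) φ - rsum p q φ) / ((p : ℝ) + q + 3)
              - rsum p q φ / (((p : ℝ) + 1) * ((q : ℝ) + 1))) ^ 2 := by
  have hP : (0 : ℝ) < (p : ℝ) + 1 := by positivity
  have hQ : (0 : ℝ) < (q : ℝ) + 1 := by positivity
  have hT : (0 : ℝ) < (p : ℝ) + q + 3 := by positivity
  have hP2 : (0 : ℝ) < (p : ℝ) + 2 := by positivity
  have hQ2 : (0 : ℝ) < (q : ℝ) + 2 := by positivity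
  have hcr : ((rect p q).card : ℝ) = ((p : ℝ) + 1) * ((q : ℝ) + 1) := card_rect p q
  have hcr' : ((rect (p + 1) (q + 1)).card : ℝ) = ((p : ℝ) + 2) * ((q : ℝ) + 2) := by
    rw [card_rect]
    push_cast
    ring
  unfold lamVar
  rw [hcr, hcr']
  have hmin : min (p + 1) (q + 1) + 1 = (min p q + 1) + 1 := by omega
  rw [hmin, Finset.sum_range_succ']
  obtain ⟨E, hE⟩ : ∃ E : ℝ, E = rsum p q φ / (((p : ℝ) + 1) * ((q : ℝ) + 1)) := ⟨_, rfl⟩
  obtain ⟨E', hE'⟩ : ∃ E' : ℝ,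
      E' = rsum (p + 1) (q + 1) φ / (((p : ℝ) + 2) * ((q : ℝ) + 2)) := ⟨_, rfl⟩
  rw [← hE, ← hE']
  have hterm : ∀ t ∈ range (min p q + 1),
      ((hook (p + 1) (q + 1) (t + 1)).card : ℝ)
        * ((∑ z ∈ hook (p + 1) (q + 1) (t + 1), diag φ z)
            / ((hook (p + 1) (q + 1) (t + 1)).card : ℝ) - E') ^ 2
      = ((hook p q t).card : ℝ)
          * ((∑ z ∈ hook p q t, diag φ z) / ((hook p q t).card : ℝ) - E) ^ 2
        + (2 * (E - E') * (∑ z ∈ hook p q t, diag φ z)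
            - (2 * (E - E') * E - (E - E') ^ 2) * ((hook p q t).card : ℝ)) := by
    intro t ht
    rw [card_hook_succ, hook_succ_sum]
    have hc : ((hook p q t).card : ℝ) ≠ 0 := card_hook_ne_zero p q t ht
    field_simp
    ring
  rw [Finset.sum_congr rfl hterm, Finset.sum_add_distrib, Finset.sum_sub_distrib,
    ← Finset.mul_sum, ← Finset.mul_sum, sum_hooks, sum_card_hooks, hook_zero_sum,
    card_hook_zero]
  have hrs : ∑ z ∈ rect p q, diag φ z = rsum p q φ := rfl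
  rw [hrs]
  have hE2 : rsum p q φ = E * (((p : ℝ) + 1) * ((q : ℝ) + 1)) := by
    rw [hE]
    field_simp
  have hE2' : rsum (p + 1) (q + 1) φ = E' * (((p : ℝ) + 2) * ((q : ℝ) + 2)) := by
    rw [hE']
    field_simp
  have key : ∀ r r' : ℝ, r = E * (((p : ℝ) + 1) * ((q : ℝ) + 1)) →
      r' = E' * (((p : ℝ) + 2) * ((q : ℝ) + 2)) →
      (2 * (E - E') * r - (2 * (E - E') * E - (E - E') ^ 2) * (((p : ℝ) + 1) * ((q : ℝ) + 1)))
        + ((p : ℝ) + q + 3) * ((r' - r) / ((p : ℝ) + q + 3) - E') ^ 2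
      = ((((p : ℝ) + q + 3) * (((p : ℝ) + 1) * ((q : ℝ) + 1)))
            / (((p : ℝ) + 2) * ((q : ℝ) + 2)))
          * ((r' - r) / ((p : ℝ) + q + 3) - E) ^ 2 := by
    intro r r' hr hr'
    rw [hr, hr']
    field_simp
    ring
  rw [add_assoc, key _ _ hE2 hE2']

/-- If the rectangle is a segment, the hook averages have no variance. -/
theorem lamVar_of_min_zero (p q : ℕ) (φ : ℤ → ℝ) (h : min p q = 0) : lamVar p q φ = 0 := by
  unfold lamVar
  rw [h]
  have hh : hook p q 0 = rect p q := by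
    ext z
    rw [mem_hook, mem_rect]
    constructor
    · rintro ⟨h1, h2, _⟩
      exact ⟨h1, h2⟩
    · rintro ⟨h1, h2⟩
      refine ⟨h1, h2, ?_⟩
      omega
  simp only [zero_add, Finset.range_one, Finset.sum_singleton, hh]
  unfold rsum
  rw [sub_self]
  ring

theorem fit_nonneg (p q : ℕ) (φ : ℤ → ℝ) (α β : ℕ → ℝ) : 0 ≤ fit p q φ α β := by
  unfold fit
  exact Finset.sum_nonneg (fun z _ => sq_nonneg _)

/-- Lemma 2 (RECT): `3 |Λ ψ - E ψ|² ≤ ∑_R (ψ - α x - β y)²` for every diagonal `ψ` and every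
additive function `α x + β y` on the rectangle `[0,p] × [0,q]`. -/
theorem rect_ineq (p q : ℕ) (φ : ℤ → ℝ) (α β : ℕ → ℝ) :
    3 * lamVar p q φ ≤ fit p q φ α β := by
  induction p generalizing q α β with
  | zero =>
    rw [lamVar_of_min_zero 0 q φ (Nat.zero_min q), mul_zero]
    exact fit_nonneg 0 q φ α β
  | succ p ih =>
    cases q with
    | zero =>
      rw [lamVar_of_min_zero (p + 1) 0 φ (Nat.min_zero (p + 1)), mul_zero]
      exact fit_nonneg (p + 1) 0 φ α β
    | succ q =>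
      obtain ⟨α', β', h⟩ := peel p q φ α β
      have h2 := ih q α' β'
      rw [lamVar_succ]
      linarith

/-- The variance of the hook averages as a sum over the points. -/
theorem sum_lamAvg (p q : ℕ) (φ : ℤ → ℝ) :
    ∑ z ∈ rect p q, (lamAvg p q φ z - rsum p q φ / ((rect p q).card : ℝ)) ^ 2
      = lamVar p q φ := by
  rw [← sum_hooks]
  unfold lamVar
  refine Finset.sum_congr rfl (fun t _ => ?_)
  have h : ∀ z ∈ hook p q t, (lamAvg p q φ z - rsum p q φ / ((rect p q).card : ℝ)) ^ 2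
      = ((∑ w ∈ hook p q t, diag φ w) / ((hook p q t).card : ℝ)
          - rsum p q φ / ((rect p q).card : ℝ)) ^ 2 := by
    intro z hz
    unfold lamAvg
    rw [((mem_hook p q t z).1 hz).2.2]
  rw [Finset.sum_congr rfl h, Finset.sum_const, nsmul_eq_mul]

/-- Lemma 2 (RECT), pointwise form. -/
theorem rect_ineq_pointwise (p q : ℕ) (φ : ℤ → ℝ) (α β : ℕ → ℝ) :
    3 * ∑ z ∈ rect p q, (lamAvg p q φ z - rsum p q φ / ((rect p q).card : ℝ)) ^ 2
      ≤ fit p q φ α β := by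
  rw [sum_lamAvg]
  exact rect_ineq p q φ α β

end Vale.Agent.H25.CT
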